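import Mathlib

/-!
Elements of a number field all of whose valuations are divisible by `n`.
-/

namespace Vale.Agent.P024.H157

open IsDedekindDomain FractionalIdeal NumberField
open scoped nonZeroDivisors NumberField

section Dedekind

variable {R : Type*} [CommRing R] [IsDedekindDomain R] {K : Type*} [Field K] [Algebra R K]
  [IsFractionRing R K]

open Classical in
/-- The valuation in terms of the factorisation of the principal fractional ideal. -/
theorem valuation_eq_count (v : HeightOneSpectrum R) {y : K} (hy : y ≠ 0) :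
    v.valuation K y = WithZero.exp (-(count K v (spanSingleton R⁰ y))) := by
  obtain ⟨a, b, hb, rfl⟩ := IsFractionRing.div_surjective (A := R) y
  have hb0 : b ≠ 0 := nonZeroDivisors.ne_zero hb
  have ha0 : a ≠ 0 := by
    rintro rfl
    simp at hy
  have hI : spanSingleton R⁰ (algebraMap R K a / algebraMap R K b) ≠ 0 := by
    rw [ne_eq, spanSingleton_eq_zero_iff]
    exact hy
  have h := count_well_defined K v hI (a := b) (J := Ideal.span {a}) (by
    rw [coeIdeal_span_singleton, spanSingleton_mul_spanSingleton]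
    congr 1
    rw [div_eq_mul_inv, mul_comm])
  rw [h, map_div₀, HeightOneSpectrum.valuation_of_algebraMap,
    HeightOneSpectrum.valuation_of_algebraMap, HeightOneSpectrum.intValuation_if_neg v ha0,
    HeightOneSpectrum.intValuation_if_neg v hb0, ← WithZero.exp_sub]
  congr 1
  ring

/-- An element all of whose valuations are divisible by `n` generates an `n`-th power. -/
theorem exists_pow_eq {n : ℕ} {y : K} (hy : y ≠ 0)
    (h : ∀ v : HeightOneSpectrum R, ∃ k : ℤ, v.valuation K y = WithZero.exp (n * k)) :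
    ∃ J : (FractionalIdeal R⁰ K)ˣ, (J : FractionalIdeal R⁰ K) ^ n = spanSingleton R⁰ y := by
  classical
  have hI : spanSingleton R⁰ y ≠ 0 := by
    rw [ne_eq, spanSingleton_eq_zero_iff]
    exact hy
  choose k hk using h
  have hc : ∀ v, count K v (spanSingleton R⁰ y) = n * (-k v) := by
    intro v
    have h1 := hk v
    rw [valuation_eq_count v hy, WithZero.exp_inj] at h1
    linarith
  rcases Nat.eq_zero_or_pos n with rfl | hn
  · refine ⟨1, ?_⟩
    rw [pow_zero, ← finprod_heightOneSpectrum_factorization' K hI]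
    symm
    apply finprod_eq_one_of_forall_eq_one
    intro v
    rw [hc v]
    simp
  have hfin : (Function.mulSupport fun v : HeightOneSpectrum R =>
      (v.asIdeal : FractionalIdeal R⁰ K) ^ (-k v)).Finite := by
    have h1 := FractionalIdeal.finite_factors (spanSingleton R⁰ y)
    rw [Filter.eventually_cofinite] at h1
    refine h1.subset ?_
    intro v hv
    simp only [Function.mem_mulSupport, ne_eq, Set.mem_ofPred_eq] at hv ⊢
    intro h2
    rw [hc v] at h2
    have h3 : k v = 0 := by
      rcases mul_eq_zero.1 h2 with h4 | h4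
      · have : (n : ℤ) ≠ 0 := by exact_mod_cast hn.ne'
        exact absurd h4 this
      · linarith
    apply hv
    rw [h3]
    simp
  have hne : (∏ᶠ v : HeightOneSpectrum R,
      (v.asIdeal : FractionalIdeal R⁰ K) ^ (-k v)) ^ n = spanSingleton R⁰ y := by
    rw [finprod_pow hfin]
    conv_rhs => rw [← finprod_heightOneSpectrum_factorization' K hI]
    refine finprod_congr fun v => ?_
    rw [hc v, ← zpow_natCast, ← zpow_mul, mul_comm]
  have hu : (∏ᶠ v : HeightOneSpectrum R,
      (v.asIdeal : FractionalIdeal R⁰ K) ^ (-k v)) ≠ 0 := by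
    intro h0
    rw [h0, zero_pow hn.ne'] at hne
    exact hI hne.symm
  exact ⟨Units.mk0 _ hu, hne⟩

end Dedekind

theorem cls {L : Type*} [Field L] [NumberField L] : ∃ h : ℕ, 0 < h ∧ ∀ (n : ℕ) (y : L), y ≠ 0 →
    (∀ v : HeightOneSpectrum (𝓞 L), ∃ k : ℤ, v.valuation L y = WithZero.exp (n * k)) →
    ∃ (u : (𝓞 L)ˣ) (z : L), z ≠ 0 ∧ y ^ h = ((u : 𝓞 L) : L) * z ^ n := by
  refine ⟨Fintype.card (ClassGroup (𝓞 L)), Fintype.card_pos, ?_⟩
  intro n y hy hv
  obtain ⟨J, hJ⟩ := exists_pow_eq (R := 𝓞 L) hy hv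
  have h1 : ClassGroup.mk (R := 𝓞 L) (K := L) (J ^ Fintype.card (ClassGroup (𝓞 L))) = 1 := by
    rw [map_pow, pow_card_eq_one]
  obtain ⟨z, hz⟩ := (ClassGroup.mk_eq_one_iff.1 h1).principal
  have h2 : ((J ^ Fintype.card (ClassGroup (𝓞 L)) : (FractionalIdeal (𝓞 L)⁰ L)ˣ) :
      FractionalIdeal (𝓞 L)⁰ L) = spanSingleton (𝓞 L)⁰ z := by
    apply coeToSubmodule_injective
    show ((J ^ Fintype.card (ClassGroup (𝓞 L)) : (FractionalIdeal (𝓞 L)⁰ L)ˣ) :
      FractionalIdeal (𝓞 L)⁰ L).coeToSubmodule = (spanSingleton (𝓞 L)⁰ z).coeToSubmodule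
    rw [show (spanSingleton (𝓞 L)⁰ z).coeToSubmodule = Submodule.span (𝓞 L) {z} from
      coe_spanSingleton _ _]
    exact hz
  have hz0 : z ≠ 0 := by
    rintro rfl
    rw [spanSingleton_zero] at h2
    exact Units.ne_zero _ h2
  have h3 : spanSingleton (𝓞 L)⁰ (z ^ n) =
      spanSingleton (𝓞 L)⁰ (y ^ Fintype.card (ClassGroup (𝓞 L))) := by
    rw [← spanSingleton_pow, ← spanSingleton_pow, ← hJ, ← h2, Units.val_pow_eq_pow_val,
      ← pow_mul, ← pow_mul, mul_comm]
  rw [spanSingleton_eq_spanSingleton] at h3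
  obtain ⟨u, hu⟩ := h3
  refine ⟨u, z, hz0, ?_⟩
  rw [← hu]
  rfl

end Vale.Agent.P024.H157
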