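import Vale.Agent.P024.H157.Ext2
import Vale.Agent.P024.M4.Spec

/-!
The blocks (EXT) and (NU).
-/

namespace Vale.Agent.P024.H157

open scoped NumberField Topology
open IsDedekindDomain Filter NumberField M4

theorem isGalois_closed {E : Type*} [Field E] [CharZero E] [IsAlgClosed E]
    [Algebra.IsAlgebraic ℚ E] : IsGalois ℚ E := by
  have h1 : IsAlgClosure ℚ E := ⟨inferInstance, inferInstance⟩
  exact IsGalois.mk

theorem restrict_eq {E : Type*} [Field E] [CharZero E] {F : IntermediateField ℚ E}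
    (x : E ≃ₐ[F] E) : x.restrictScalars ℚ = ((toFix F x : F.fixingSubgroup) : E ≃ₐ[ℚ] E) := rfl

theorem goodB_of_rel {E₁ E₂ : Type*} [Field E₁] [CharZero E₁] [Field E₂] [CharZero E₂]
    {F : IntermediateField ℚ E₁} (hF : IsOpen (F.fixingSubgroup : Set (E₁ ≃ₐ[ℚ] E₁)))
    (a : (E₁ ≃ₐ[F] E₁) →* (E₂ ≃ₐ[ℚ] E₂)) {g : E₁ ≃ₐ[ℚ] E₁} {b : E₂ ≃ₐ[ℚ] E₂} (h : Rel a g b) :
    GoodB F.fixingSubgroup (a.comp F.fixingSubgroupEquiv.toMonoidHom) g b := by
  obtain ⟨H, hH, h1⟩ := h
  refine ⟨H ⊓ F.fixingSubgroup ⊓ F.fixingSubgroup.comap (MulAut.conj g).toMonoidHom,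
    (hH.inter hF).inter (isOpen_conj hF g), inf_le_left.trans inf_le_right, ?_⟩
  rintro x ⟨⟨hx1, hx2⟩, hx3⟩
  have hx4 : g * x * g⁻¹ ∈ F.fixingSubgroup := hx3
  refine ⟨hx4, ?_⟩
  exact h1 (F.fixingSubgroupEquiv ⟨x, hx2⟩) (F.fixingSubgroupEquiv ⟨g * x * g⁻¹, hx4⟩) hx1 rfl

theorem rel_of_goodB {E₁ E₂ : Type*} [Field E₁] [CharZero E₁] [Field E₂] [CharZero E₂]
    {F : IntermediateField ℚ E₁} (a : (E₁ ≃ₐ[F] E₁) →* (E₂ ≃ₐ[ℚ] E₂)) {g : E₁ ≃ₐ[ℚ] E₁}
    {b : E₂ ≃ₐ[ℚ] E₂}
    (h : GoodB F.fixingSubgroup (a.comp F.fixingSubgroupEquiv.toMonoidHom) g b) : Rel a g b := by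
  obtain ⟨V, hV, hVF, h1⟩ := h
  refine ⟨V, hV, fun x y hx hy => ?_⟩
  obtain ⟨h2, h3⟩ := h1 _ hx
  have e1 : (⟨g * x.restrictScalars ℚ * g⁻¹, h2⟩ : F.fixingSubgroup) =
      F.fixingSubgroupEquiv.symm y := Subtype.ext hy.symm
  have e2 : (⟨x.restrictScalars ℚ, hVF hx⟩ : F.fixingSubgroup) =
      F.fixingSubgroupEquiv.symm x := rfl
  rw [e1, e2] at h3
  have h4 : ∀ t, (a.comp F.fixingSubgroupEquiv.toMonoidHom) (F.fixingSubgroupEquiv.symm t) = a t :=
    fun t => congrArg a (F.fixingSubgroupEquiv.apply_symm_apply t)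
  rwa [h4, h4] at h3

theorem ker_eq {G S : Type*} [Group G] [Group S] (H : Subgroup G) [H.Normal] (f : H →* S) (g : G)
    (e : ℕ) (he : 0 < e) (hge : g ^ e ∈ H)
    (h : ∀ x : H, f (MulAut.conjNormal g x) = 1 → f x = 1) (x : H) (hx : f x = 1) :
    f (MulAut.conjNormal g x) = 1 := by
  have h1 : ∀ (i : ℕ) (x : H), f (MulAut.conjNormal (g ^ (i + 1)) x) = 1 →
      f (MulAut.conjNormal g x) = 1 := by
    intro i
    induction i with
    | zero =>
      intro x hx
      rwa [zero_add, pow_one] at hx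
    | succ i ih =>
      intro x hx
      rw [pow_succ' g (i + 1), map_mul] at hx
      exact ih x (h _ hx)
  obtain ⟨i, rfl⟩ : ∃ i, e = i + 1 := ⟨e - 1, by omega⟩
  refine h1 i x ?_
  have h2 : MulAut.conjNormal (g ^ (i + 1)) x = ⟨g ^ (i + 1), hge⟩ * x * ⟨g ^ (i + 1), hge⟩⁻¹ := by
    apply Subtype.ext
    rw [MulAut.conjNormal_apply]
    rfl
  rw [h2, map_mul, map_mul, hx, mul_one, ← map_mul, mul_inv_cancel, map_one]

theorem nu_abs {G S : Type*} [Group G] [TopologicalSpace G] [IsTopologicalGroup G]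
    [CompactSpace G] [Group S] [TopologicalSpace S] [IsTopologicalGroup S] [T2Space S]
    (H : Subgroup G) [H.Normal] (hH : IsOpen (H : Set G)) (f : H →* S) (hf : Continuous f)
    (hopen : IsOpen (Set.range f)) (g : G)
    (h : ∀ x : H, f (MulAut.conjNormal g x) = 1 → f x = 1)
    (hnu : ∀ V : Subgroup S, IsOpen (V : Set S) → ∀ γ : V →* S, Continuous γ →
      Function.Injective γ → IsOpen (Set.range γ) → ∃ b : S, ∀ v : V, γ v = b * v * b⁻¹) :
    ∃ b : S, ∀ x : H, f (MulAut.conjNormal g x) = b * f x * b⁻¹ := by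
  have hHc : CompactSpace H :=
    isCompact_iff_compactSpace.1 (Subgroup.isClosed_of_isOpen H hH).isCompact
  obtain ⟨e, he, hge⟩ : ∃ e : ℕ, 0 < e ∧ g ^ e ∈ H := by
    have := Subgroup.quotient_finite_of_isOpen _ hH
    have h1 : H.FiniteIndex := Subgroup.finiteIndex_of_finite_quotient
    obtain ⟨e, he, -, h2⟩ := Subgroup.exists_pow_mem_of_index_ne_zero h1.index_ne_zero g
    exact ⟨e, he, h2⟩
  let fg : H →* S := f.comp (MulAut.conjNormal g : MulAut H).toMonoidHom
  have hfg : Continuous fg := by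
    refine hf.comp ?_
    refine Continuous.subtype_mk (f := fun x : H => g * x * g⁻¹) (by fun_prop) _
  have hk : f.rangeRestrict.ker ≤ fg.ker := by
    intro x hx
    have hx' : f x = 1 := by
      have := congrArg Subtype.val (MonoidHom.mem_ker.1 hx)
      exact this
    exact ker_eq H f g e he hge h x hx'
  let γ : f.range →* S := f.rangeRestrict.liftOfSurjective f.rangeRestrict_surjective ⟨fg, hk⟩
  have hγ : ∀ x : H, γ (f.rangeRestrict x) = fg x := fun x =>
    f.rangeRestrict.liftOfRightInverse_comp_apply _ _ ⟨fg, hk⟩ x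
  have hV : IsOpen ((f.range : Subgroup S) : Set S) := by rwa [MonoidHom.coe_range]
  have hrr : Continuous f.rangeRestrict := hf.subtype_mk _
  have hq : Topology.IsQuotientMap f.rangeRestrict :=
    hrr.isClosedMap.isQuotientMap hrr f.rangeRestrict_surjective
  obtain ⟨b, hb⟩ := hnu f.range hV γ (by
      rw [hq.continuous_iff]
      have : (γ ∘ f.rangeRestrict) = fg := funext hγ
      rw [this]
      exact hfg) (by
      rw [injective_iff_map_eq_one]
      intro v hv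
      obtain ⟨x, rfl⟩ := f.rangeRestrict_surjective v
      rw [hγ] at hv
      exact Subtype.ext (h x hv)) (by
      have : Set.range γ = Set.range f := by
        ext y
        constructor
        · rintro ⟨v, rfl⟩
          obtain ⟨x, rfl⟩ := f.rangeRestrict_surjective v
          exact ⟨_, (hγ x).symm⟩
        · rintro ⟨x, rfl⟩
          obtain ⟨z, rfl⟩ := (MulAut.conjNormal g : MulAut H).surjective x
          exact ⟨f.rangeRestrict z, hγ z⟩
      rw [this]
      exact hopen)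
  exact ⟨b, fun x => by
    have := hb (f.rangeRestrict x)
    rw [hγ] at this
    exact this⟩

/-- **(NU)** -/
theorem propNU : PropNU := by
  intro E₁ E₂ _ _ _ _ _ _ _ hE₂ F hF a ha hopen H hHn hHo hHF g hker
  have hgal : IsGalois ℚ E₁ := isGalois_closed
  have hFf : FiniteDimensional ℚ F := hF.to_finiteDimensional
  have hFo : IsOpen (F.fixingSubgroup : Set (E₁ ≃ₐ[ℚ] E₁)) :=
    IntermediateField.fixingSubgroup_isOpen F
  let a' : F.fixingSubgroup →* (E₂ ≃ₐ[ℚ] E₂) := a.comp F.fixingSubgroupEquiv.toMonoidHom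
  have hca' : Continuous a' := ha.comp (continuous_fixEquiv F)
  have hra' : IsOpen (Set.range a') := by
    have : Set.range a' = Set.range a := by
      ext y
      constructor
      · rintro ⟨x, rfl⟩
        exact ⟨_, rfl⟩
      · rintro ⟨x, rfl⟩
        exact ⟨F.fixingSubgroupEquiv.symm x, congrArg a (F.fixingSubgroupEquiv.apply_symm_apply x)⟩
    rw [this]
    exact hopen
  let f : H →* (E₂ ≃ₐ[ℚ] E₂) := a'.comp (Subgroup.inclusion hHF)
  have hf : Continuous f := hca'.comp (Continuous.subtype_mk continuous_subtype_val _)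
  have hfo : IsOpen (Set.range f) := by
    have h1 := img_open _ hFo a' hca' hra' H hHo hHF
    convert h1 using 1
    ext y
    constructor
    · rintro ⟨x, rfl⟩
      exact ⟨Subgroup.inclusion hHF x, x.2, rfl⟩
    · rintro ⟨x, hx, rfl⟩
      exact ⟨⟨x, hx⟩, rfl⟩
  obtain ⟨b, hb⟩ := nu_abs H hHo f hf hfo g (by
    intro x hx
    exact hker (F.fixingSubgroupEquiv ⟨x, hHF x.2⟩)
      (F.fixingSubgroupEquiv ⟨(MulAut.conjNormal g x : H), hHF (MulAut.conjNormal g x : H).2⟩)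
      x.2 rfl hx) (fun V hV γ h1 h2 h3 => nu hE₂ V hV γ h1 h2 h3)
  refine ⟨b, H, hHo, fun x y hx hy => ?_⟩
  have h1 := hb ⟨x.restrictScalars ℚ, hx⟩
  have e1 : f ⟨x.restrictScalars ℚ, hx⟩ = a x :=
    congrArg a (F.fixingSubgroupEquiv.apply_symm_apply x)
  have e2 : f (MulAut.conjNormal g ⟨x.restrictScalars ℚ, hx⟩) = a y := by
    have e3 : Subgroup.inclusion hHF (MulAut.conjNormal g ⟨x.restrictScalars ℚ, hx⟩) =
        F.fixingSubgroupEquiv.symm y := Subtype.ext hy.symm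
    show a (F.fixingSubgroupEquiv (Subgroup.inclusion hHF _)) = a y
    rw [e3, MulEquiv.apply_symm_apply]
  rw [e1, e2] at h1
  exact h1

/-- **(EXT)** -/
theorem propEXT : PropEXT := by
  intro E₁ E₂ _ _ _ _ _ _ _ hE₂ F hF a ha hopen g b hg hrel
  have hgal : IsGalois ℚ E₁ := isGalois_closed
  have hFf : FiniteDimensional ℚ F := hF.to_finiteDimensional
  obtain ⟨F0, hle, a0, hF0, hc, ho, hmatch, hU⟩ := ext_field hE₂ F a ha hopen
  refine ⟨F0, lt_of_le_of_ne hle ?_, a0, hc, ho, fun x y hxy => hmatch x y fun t => (hxy t).symm⟩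
  rintro rfl
  exact hg ((hU g).2 ⟨b, goodB_of_rel (IntermediateField.fixingSubgroup_isOpen F0) a hrel⟩)

end Vale.Agent.P024.H157
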