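import Vale.Agent.P024.H157.PropsExt
import Vale.Agent.P024.H566.Rel

/-!
The group `C_φ` is not trivial.
-/

namespace Vale.Agent.P024.H157

open scoped NumberField Topology
open IsDedekindDomain Filter NumberField M4

section abs

variable {Γ S : Type*} [Group Γ] [TopologicalSpace Γ] [IsTopologicalGroup Γ] [CompactSpace Γ]
  [Group S] [TopologicalSpace S] [IsTopologicalGroup S] [T2Space S]

omit [IsTopologicalGroup S] in
theorem isClosed_ker {G : Type*} [Group G] [TopologicalSpace G] (f : G →* S) (hf : Continuous f) :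
    IsClosed (f.ker : Set G) := isClosed_singleton.preimage hf

omit [CompactSpace Γ] in
theorem continuous_conjNormal (H : Subgroup Γ) [H.Normal] (g : Γ) :
    Continuous (MulAut.conjNormal g : MulAut H) := by
  refine Continuous.subtype_mk (f := fun x : H => g * x * g⁻¹) (by fun_prop) _

omit [CompactSpace Γ] [IsTopologicalGroup S] in
theorem isClosed_Nphi (H : Subgroup Γ) [H.Normal] (f : H →* S) (hf : Continuous f) (φ : Γ) (k : ℕ) :
    IsClosed (H566.Nphi f φ k : Set H) := by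
  have : (H566.Nphi f φ k : Set H) = ⋂ j ∈ Set.Ioo 0 k,
      ((f.comp (MulAut.conjNormal (φ ^ j) : MulAut H).toMonoidHom).ker : Set H) := by
    ext x
    simp only [SetLike.mem_coe, H566.mem_Nphi, Set.mem_iInter, Set.mem_Ioo, MonoidHom.mem_ker,
      and_imp]
    rfl
  rw [this]
  refine isClosed_biInter fun j _ => isClosed_ker _ (hf.comp (continuous_conjNormal H _))

omit [IsTopologicalGroup S] in
/-- the image of a closed normal subgroup -/
theorem map_closed (H : Subgroup Γ) (hH : IsOpen (H : Set Γ)) (f : H →* S) (hf : Continuous f)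
    (N : Subgroup H) (hN : IsClosed (N : Set H)) : IsClosed ((N.map f : Subgroup S) : Set S) := by
  have hHc : CompactSpace H :=
    isCompact_iff_compactSpace.1 (Subgroup.isClosed_of_isOpen H hH).isCompact
  rw [Subgroup.coe_map]
  exact (hN.isCompact.image hf).isClosed

omit [TopologicalSpace S] [IsTopologicalGroup S] [T2Space S] in
theorem map_norm {H : Type*} [Group H] (f : H →* S) (N : Subgroup H) [hN : N.Normal] :
    ∀ w ∈ f.range, ∀ x ∈ N.map f, w * x * w⁻¹ ∈ N.map f := by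
  rintro _ ⟨w, rfl⟩ _ ⟨x, hx, rfl⟩
  exact ⟨w * x * w⁻¹, hN.conj_mem x hx w, by simp⟩

theorem claim_abs
    (hcomm : ∀ W A B : Subgroup S, IsOpen (W : Set S) → IsClosed (A : Set S) →
      IsClosed (B : Set S) → (∀ w ∈ W, ∀ x ∈ A, w * x * w⁻¹ ∈ A) →
      (∀ w ∈ W, ∀ x ∈ B, w * x * w⁻¹ ∈ B) → A ≠ ⊥ → B ≠ ⊥ → ∃ x ∈ A, ∃ y ∈ B, x * y ≠ y * x)
    (H : Subgroup Γ) [H.Normal] (hH : IsOpen (H : Set Γ)) (f : H →* S) (hf : Continuous f)
    (hopen : IsOpen (Set.range f)) (φ : Γ) (k : ℕ) (hk : 2 ≤ k)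
    (h : ∀ j, 0 < j → j < k → ∃ x : H, f (MulAut.conjNormal (φ ^ j) x) = 1 ∧ f x ≠ 1) :
    (H566.Nphi f φ k).map f ≠ ⊥ := by
  have hr : IsOpen ((f.range : Subgroup S) : Set S) := by rwa [MonoidHom.coe_range]
  induction k, hk using Nat.le_induction with
  | base =>
    obtain ⟨x, hx1, hx2⟩ := h 1 one_pos one_lt_two
    intro hbot
    apply hx2
    have h1 : f x ∈ (H566.Nphi f φ 2).map f := by
      refine ⟨x, ?_, rfl⟩
      rw [SetLike.mem_coe, H566.mem_Nphi]
      intro j h0 h2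
      have : j = 1 := by omega
      rw [this]
      exact hx1
    rw [hbot] at h1
    exact h1
  | succ k hk ih =>
    have ih' := ih fun j h0 hj => h j h0 (by omega)
    set K : Subgroup H := (f.comp (MulAut.conjNormal (φ ^ k) : MulAut H).toMonoidHom).ker with hK
    have hKc : IsClosed (K : Set H) := isClosed_ker _ (hf.comp (continuous_conjNormal H _))
    have hKb : K.map f ≠ ⊥ := by
      obtain ⟨x, hx1, hx2⟩ := h k (by omega) (by omega)
      intro hbot
      apply hx2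
      have h1 : f x ∈ K.map f := ⟨x, hx1, rfl⟩
      rw [hbot] at h1
      exact h1
    obtain ⟨_, ⟨x, hx, rfl⟩, _, ⟨y, hy, rfl⟩, hxy⟩ := hcomm f.range ((H566.Nphi f φ k).map f)
      (K.map f) hr (map_closed H hH f hf _ (isClosed_Nphi H f hf φ k))
      (map_closed H hH f hf _ hKc) (map_norm f _) (map_norm f _) ih' hKb
    intro hbot
    apply hxy
    have h1 : f (x * y * x⁻¹ * y⁻¹) ∈ (H566.Nphi f φ (k + 1)).map f := by
      refine ⟨x * y * x⁻¹ * y⁻¹, ?_, rfl⟩
      rw [SetLike.mem_coe, H566.mem_Nphi]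
      intro j h0 hj
      rcases Nat.lt_succ_iff_lt_or_eq.1 hj with hj' | rfl
      · have h2 : x * y * x⁻¹ * y⁻¹ ∈ H566.Nphi f φ k := by
          have : x * y * x⁻¹ * y⁻¹ = x * (y * x⁻¹ * y⁻¹) := by group
          rw [this]
          exact mul_mem hx ((inferInstance : (H566.Nphi f φ k).Normal).conj_mem _ (inv_mem hx) y)
        exact H566.mem_Nphi.1 h2 j h0 hj'
      · have h2 : x * y * x⁻¹ * y⁻¹ ∈ K := by
          exact mul_mem ((inferInstance : K.Normal).conj_mem _ hy x) (inv_mem hy)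
        exact h2
    rw [hbot, Subgroup.mem_bot, map_mul, map_mul, map_mul, map_inv, map_inv] at h1
    rw [mul_inv_eq_one, mul_inv_eq_iff_eq_mul] at h1
    exact h1

end abs

/-- **the claim of step (2)** -/
theorem claim_field.{u, v} (hcomm : PropCOMM.{v}) {E₁ : Type u} {E₂ : Type v} [Field E₁]
    [CharZero E₁] [IsAlgClosed E₁] [Algebra.IsAlgebraic ℚ E₁] [Field E₂] [CharZero E₂]
    [IsGalois ℚ E₂] (hE₂ : SolvablyClosed E₂) (F : IntermediateField ℚ E₁) [hF : NumberField F]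
    (a : (E₁ ≃ₐ[F] E₁) →* (E₂ ≃ₐ[ℚ] E₂)) (ha : Continuous a) (hopen : IsOpen (Set.range a))
    (hmax : ∀ g b, Rel a g b → g ∈ F.fixingSubgroup)
    (H : Subgroup (E₁ ≃ₐ[ℚ] E₁)) [hHn : H.Normal] (hHo : IsOpen (H : Set (E₁ ≃ₐ[ℚ] E₁)))
    (hHF : H ≤ F.fixingSubgroup) (φ : E₁ ≃ₐ[ℚ] E₁) (k : ℕ) (hk : 2 ≤ k)
    (hφ : ∀ j, 0 < j → j < k → φ ^ j ∉ F.fixingSubgroup) (f : H →* (E₂ ≃ₐ[ℚ] E₂))
    (hfdef : f = H566.resH hHF (a.comp F.fixingSubgroupEquiv.toMonoidHom)) :
    IsOpen ((f.range : Subgroup (E₂ ≃ₐ[ℚ] E₂)) : Set (E₂ ≃ₐ[ℚ] E₂)) ∧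
    IsClosed (((H566.Nphi f φ k).map f : Subgroup (E₂ ≃ₐ[ℚ] E₂)) : Set (E₂ ≃ₐ[ℚ] E₂)) ∧
    (∀ w ∈ f.range, ∀ x ∈ (H566.Nphi f φ k).map f, w * x * w⁻¹ ∈ (H566.Nphi f φ k).map f) ∧
    (H566.Nphi f φ k).map f ≠ ⊥ := by
  have hgal : IsGalois ℚ E₁ := isGalois_closed
  have hFf : FiniteDimensional ℚ F := hF.to_finiteDimensional
  have hFo : IsOpen (F.fixingSubgroup : Set (E₁ ≃ₐ[ℚ] E₁)) :=
    IntermediateField.fixingSubgroup_isOpen F
  let a' : F.fixingSubgroup →* (E₂ ≃ₐ[ℚ] E₂) := a.comp F.fixingSubgroupEquiv.toMonoidHom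
  have hca' : Continuous a' := ha.comp (continuous_fixEquiv F)
  have hra' : IsOpen (Set.range a') := by
    have : Set.range a' = Set.range a := by
      ext y
      constructor
      · rintro ⟨x, rfl⟩
        exact ⟨_, rfl⟩
      · rintro ⟨x, rfl⟩
        exact ⟨F.fixingSubgroupEquiv.symm x, congrArg a (F.fixingSubgroupEquiv.apply_symm_apply x)⟩
    rw [this]
    exact hopen
  have hfa : f = a'.comp (Subgroup.inclusion hHF) := hfdef
  have hf : Continuous f := by
    rw [hfa]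
    exact hca'.comp (Continuous.subtype_mk continuous_subtype_val _)
  have hfo : IsOpen (Set.range f) := by
    have h1 := img_open _ hFo a' hca' hra' H hHo hHF
    convert h1 using 1
    rw [hfa]
    ext y
    constructor
    · rintro ⟨x, rfl⟩
      exact ⟨Subgroup.inclusion hHF x, x.2, rfl⟩
    · rintro ⟨x, hx, rfl⟩
      exact ⟨⟨x, hx⟩, rfl⟩
  refine ⟨by rwa [MonoidHom.coe_range], map_closed H hHo f hf _ (isClosed_Nphi H f hf φ k),
    map_norm f _, ?_⟩
  refine claim_abs (fun W A B h1 h2 h3 h4 h5 h6 h7 => hcomm E₂ hE₂ W A B h1 h2 h3 h4 h5 h6 h7) H hHo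
    f hf hfo φ k hk ?_
  intro j h0 hj
  by_contra hcon
  push Not at hcon
  obtain ⟨b, hb⟩ := propNU E₁ E₂ hE₂ F a ha hopen H hHn hHo hHF (φ ^ j) (by
    intro x y hx hy hay
    have h1 := hcon ⟨x.restrictScalars ℚ, hx⟩ (by
      have e3 : Subgroup.inclusion hHF (MulAut.conjNormal (φ ^ j) ⟨x.restrictScalars ℚ, hx⟩) =
          F.fixingSubgroupEquiv.symm y := Subtype.ext hy.symm
      rw [hfa]
      show a (F.fixingSubgroupEquiv (Subgroup.inclusion hHF _)) = 1
      rw [e3, MulEquiv.apply_symm_apply]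
      exact hay)
    rw [hfa] at h1
    have e1 : a'.comp (Subgroup.inclusion hHF) ⟨x.restrictScalars ℚ, hx⟩ = a x :=
      congrArg a (F.fixingSubgroupEquiv.apply_symm_apply x)
    rwa [e1] at h1)
  exact hφ j h0 hj (hmax _ b hb)

end Vale.Agent.P024.H157
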