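import Mathlib

/-!
A lower bound for the order of a finite group `M` killed by `p` with an action of a finite abelian
group `G`, where `p` generates `(ℤ/d)ˣ` for all `d` dividing the exponent of `G`.
-/

namespace Vale.Agent.P024.H157

open Finset

section LA

variable {p : ℕ} [hpf : Fact p.Prime] {G : Type*} [CommGroup G] [Fintype G]
  {k : Type*} [Field k] [Algebra (ZMod p) k]
  {M : Type*} [AddCommGroup M] [Module (ZMod p) M] {ι : Type*}

/-- coordinates of the component of `m` at the character `χ` (times the order of the group) -/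
noncomputable def ww (b : Module.Basis ι (ZMod p) M) (ρ : G →* AddMonoid.End M) (χ : G →* kˣ)
    (m : M) : ι → k :=
  fun i => ∑ g : G, ((χ g)⁻¹ : kˣ) * algebraMap (ZMod p) k (b.repr (ρ g m) i)

theorem ww_frob (b : Module.Basis ι (ZMod p) M) (ρ : G →* AddMonoid.End M) (χ : G →* kˣ)
    (m : M) (i : ι) : ww b ρ (χ ^ p) m i = ww b ρ χ m i ^ p := by
  have : CharP k p := charP_of_injective_algebraMap (algebraMap (ZMod p) k).injective p
  rw [ww, ww, sum_pow_char]
  refine Finset.sum_congr rfl fun g _ => ?_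
  rw [mul_pow, ← map_pow, ZMod.pow_card]
  congr 1

theorem ww_frob_iter (b : Module.Basis ι (ZMod p) M) (ρ : G →* AddMonoid.End M) (χ : G →* kˣ)
    (m : M) (i : ι) (t : ℕ) : ww b ρ (χ ^ (p ^ t)) m i = ww b ρ χ m i ^ (p ^ t) := by
  induction t with
  | zero =>
    have h : χ ^ (p ^ 0) = χ := by
      ext g
      rw [MonoidHom.pow_apply, pow_zero, pow_one]
    rw [h, pow_zero, pow_one]
  | succ t ih =>
    have h : χ ^ (p ^ (t + 1)) = (χ ^ (p ^ t)) ^ p := by
      ext g
      rw [MonoidHom.pow_apply, MonoidHom.pow_apply, MonoidHom.pow_apply, ← pow_mul, ← pow_succ]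
    rw [h, ww_frob, ih, ← pow_mul, ← pow_succ]

theorem ww_smul (b : Module.Basis ι (ZMod p) M) (ρ : G →* AddMonoid.End M) (χ : G →* kˣ)
    (m : M) (h : G) (i : ι) :
    ∑ g : G, ((χ g)⁻¹ : kˣ) * algebraMap (ZMod p) k (b.repr (ρ (h * g) m) i) =
      ((χ h : kˣ) : k) * ww b ρ χ m i := by
  rw [ww, Finset.mul_sum]
  refine Fintype.sum_equiv (Equiv.mulLeft h) _ _ fun g => ?_
  rw [Equiv.coe_mulLeft, map_mul χ, mul_inv, Units.val_mul, ← mul_assoc, ← mul_assoc]
  congr 1
  rw [Units.mul_inv, one_mul]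

end LA

/-- Characters with the same kernel are Frobenius conjugates. -/
theorem char_conj {p : ℕ} {G : Type*} [CommGroup G] [Finite G]
    (hgen : ∀ d, d ∣ Monoid.exponent G → ∀ i, Nat.Coprime i d → ∃ t, p ^ t ≡ i [MOD d])
    {k : Type*} [Field k] (χ χ' : G →* kˣ) (h : χ.ker = χ'.ker) :
    ∃ t : ℕ, χ' = χ ^ (p ^ t) := by
  have hfinr : Finite χ.range :=
    Finite.of_surjective χ.rangeRestrict χ.rangeRestrict_surjective
  have hcyc : IsCyclic χ.range :=
    isCyclic_of_injective_ringHom ((Units.coeHom k).comp χ.range.subtype)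
      (Units.val_injective.comp Subtype.val_injective)
  obtain ⟨⟨_, ⟨s, rfl⟩⟩, hs⟩ := hcyc.exists_generator
  have hs' : ∀ g : G, ∃ j : ℤ, χ g = χ s ^ j := by
    intro g
    obtain ⟨j, hj⟩ := hs ⟨χ g, ⟨g, rfl⟩⟩
    exact ⟨j, (congrArg Subtype.val hj).symm⟩
  have hker : ∀ g : G, χ g = 1 ↔ χ' g = 1 := by
    intro g
    rw [← MonoidHom.mem_ker, h, MonoidHom.mem_ker]
  have hord : orderOf (χ' s) = orderOf (χ s) := by
    rw [orderOf_eq_orderOf_iff]
    intro n
    rw [← map_pow, ← map_pow]
    exact (hker _).symm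
  have hfin : IsOfFinOrder (χ s) := by
    have : IsOfFinOrder s := isOfFinOrder_of_finite s
    exact χ.isOfFinOrder this
  have hd0 : NeZero (orderOf (χ s)) := ⟨(orderOf_pos_iff.2 hfin).ne'⟩
  have hprim : IsPrimitiveRoot (χ s) (orderOf (χ s)) := IsPrimitiveRoot.orderOf _
  have hprim' : IsPrimitiveRoot (χ' s) (orderOf (χ s)) := hord ▸ IsPrimitiveRoot.orderOf _
  obtain ⟨i, -, hi, hi'⟩ := (IsPrimitiveRoot.isPrimitiveRoot_iff' hprim).1 hprim'
  have hdvd : orderOf (χ s) ∣ Monoid.exponent G :=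
    (orderOf_map_dvd χ s).trans (Monoid.order_dvd_exponent s)
  obtain ⟨t, ht⟩ := hgen _ hdvd i hi
  refine ⟨t, ?_⟩
  have hst : χ' s = χ s ^ (p ^ t) := by
    rw [← hi']
    exact (pow_eq_pow_iff_modEq.2 ht).symm
  ext g
  obtain ⟨j, hj⟩ := hs' g
  have h1 : χ' g = χ' s ^ j := by
    have h2 : χ (g * (s ^ j)⁻¹) = 1 := by
      rw [map_mul, map_inv, map_zpow, hj, mul_inv_cancel]
    have h3 := (hker _).1 h2
    rw [map_mul, map_inv, map_zpow, mul_inv_eq_one] at h3
    exact h3
  rw [h1, hst, MonoidHom.pow_apply, hj, ← zpow_natCast, ← zpow_natCast, ← zpow_mul, ← zpow_mul,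
    mul_comm]

open Classical in
theorem rank_ge_aux {p : ℕ} [hpf : Fact p.Prime] {G : Type*} [CommGroup G] [Fintype G]
    (k : Type*) [Field k] [Algebra (ZMod p) k] (hcharP : CharP k p)
    (hroots : HasEnoughRootsOfUnity k (Monoid.exponent G))
    (hpG : ¬ p ∣ Nat.card G)
    (hgen : ∀ d, d ∣ Monoid.exponent G → ∀ i, Nat.Coprime i d → ∃ t, p ^ t ≡ i [MOD d])
    {M : Type*} [AddCommGroup M] [Finite M] [Module (ZMod p) M]
    (ρ : G →* AddMonoid.End M)
    (h : ∀ K : Subgroup G, IsCyclic (G ⧸ K) → K ≠ ⊤ → ∃ m : M, m ≠ 0 ∧ (∀ g ∈ K, ρ g m = m) ∧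
      ∀ K' : Subgroup G, K < K' → ∑ g : G with g ∈ K', ρ g m = 0) :
    p ^ (Nat.card G - 1) ≤ Nat.card M := by
  have hfd : Module.Finite (ZMod p) M := Module.Finite.of_finite
  let b := Module.finBasis (ZMod p) M
  have hcardM : Nat.card M = p ^ Module.finrank (ZMod p) M := by
    have h1 := Module.natCard_eq_pow_finrank (K := ZMod p) (V := M)
    rw [Nat.card_zmod] at h1
    exact h1
  rw [hcardM]
  refine Nat.pow_le_pow_right hpf.out.pos ?_
  have hcardG : (Nat.card G : k) ≠ 0 := by
    rw [Ne, CharP.cast_eq_zero_iff k p]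
    exact hpG
  have hfinχ : Finite (G →* kˣ) := by
    obtain ⟨e⟩ := CommGroup.monoidHom_mulEquiv_of_hasEnoughRootsOfUnity G k
    exact Finite.of_equiv _ e.symm.toEquiv
  have : Fintype (G →* kˣ) := Fintype.ofFinite _
  have hcardχ : Fintype.card (G →* kˣ) = Nat.card G := by
    obtain ⟨e⟩ := CommGroup.monoidHom_mulEquiv_of_hasEnoughRootsOfUnity G k
    rw [← Nat.card_eq_fintype_card]
    exact Nat.card_congr e.toEquiv
  -- orthogonality
  have horth : ∀ g : G, g ≠ 1 → ∑ χ : G →* kˣ, (((χ g)⁻¹ : kˣ) : k) = 0 := by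
    intro g hg
    obtain ⟨ψ, hψ⟩ := CommGroup.exists_apply_ne_one_of_hasEnoughRootsOfUnity G k hg
    have h1 : ∑ χ : G →* kˣ, (((χ g)⁻¹ : kˣ) : k) =
        (((ψ g)⁻¹ : kˣ) : k) * ∑ χ : G →* kˣ, (((χ g)⁻¹ : kˣ) : k) := by
      rw [Finset.mul_sum]
      symm
      refine Fintype.sum_equiv (Equiv.mulLeft ψ) _ _ fun χ => ?_
      rw [Equiv.coe_mulLeft, MonoidHom.mul_apply, mul_inv, Units.val_mul]
    have h2 : (((ψ g)⁻¹ : kˣ) : k) ≠ 1 := by
      intro h3
      apply hψ
      rw [Units.val_eq_one, inv_eq_one] at h3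
      exact h3
    have h4 : (1 - (((ψ g)⁻¹ : kˣ) : k)) * ∑ χ : G →* kˣ, (((χ g)⁻¹ : kˣ) : k) = 0 := by
      rw [sub_mul, one_mul, ← h1, sub_self]
    rcases mul_eq_zero.1 h4 with h5 | h5
    · exact absurd (sub_eq_zero.1 h5).symm h2
    · exact h5
  -- the nonzero component
  have hcomp : ∀ χ : G →* kˣ, χ ≠ 1 → ∃ m : M, ww b ρ χ m ≠ 0 := by
    intro χ hχ
    have hcyc : IsCyclic (G ⧸ χ.ker) := by
      have hfinr : Finite χ.range :=
        Finite.of_surjective χ.rangeRestrict χ.rangeRestrict_surjective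
      have h1 : IsCyclic χ.range :=
        isCyclic_of_injective_ringHom ((Units.coeHom k).comp χ.range.subtype)
          (Units.val_injective.comp Subtype.val_injective)
      exact isCyclic_of_surjective (QuotientGroup.quotientKerEquivRange χ).symm
        (QuotientGroup.quotientKerEquivRange χ).symm.surjective
    have hK : χ.ker ≠ ⊤ := by
      intro h1
      apply hχ
      ext g
      have : g ∈ χ.ker := h1 ▸ Subgroup.mem_top g
      rw [MonoidHom.mem_ker.1 this]
      rfl
    obtain ⟨m, hm0, hmK, hmK'⟩ := h χ.ker hcyc hK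
    refine ⟨m, ?_⟩
    -- some component is nonzero
    obtain ⟨i, hi⟩ : ∃ i, b.repr m i ≠ 0 := by
      by_contra hcon
      push Not at hcon
      apply hm0
      rw [← b.repr.map_eq_zero_iff]
      ext i
      exact hcon i
    have hsum : ∑ χ' : G →* kˣ, ww b ρ χ' m i ≠ 0 := by
      have h1 : ∑ χ' : G →* kˣ, ww b ρ χ' m i =
          (Nat.card G : k) * algebraMap (ZMod p) k (b.repr m i) := by
        simp only [ww]
        rw [Finset.sum_comm]
        simp only [← Finset.sum_mul]
        rw [Finset.sum_eq_single 1]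
        · simp only [map_one, inv_one, Units.val_one, Finset.sum_const, Finset.card_univ,
            hcardχ, nsmul_eq_mul, mul_one]
          rfl
        · intro g _ hg
          rw [horth g hg, zero_mul]
        · intro h2
          exact absurd (Finset.mem_univ _) h2
      rw [h1]
      refine mul_ne_zero hcardG ?_
      rw [Ne, map_eq_zero]
      exact hi
    obtain ⟨χ', -, hχ'⟩ := Finset.exists_ne_zero_of_sum_ne_zero hsum
    -- the kernel of χ' contains the kernel of χ
    have hle : χ.ker ≤ χ'.ker := by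
      intro g hg
      have h1 : ww b ρ χ' m i = ((χ' g : kˣ) : k) * ww b ρ χ' m i := by
        rw [← ww_smul]
        rw [ww]
        refine Finset.sum_congr rfl fun g' _ => ?_
        have h2 : ρ (g * g') m = ρ g' m := by
          rw [mul_comm g g', map_mul]
          show ρ g' (ρ g m) = ρ g' m
          rw [hmK g hg]
        rw [h2]
      have h2 : ((χ' g : kˣ) : k) = 1 := by
        have h3 : (((χ' g : kˣ) : k) - 1) * ww b ρ χ' m i = 0 := by
          rw [sub_mul, one_mul, ← h1, sub_self]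
        rcases mul_eq_zero.1 h3 with h4 | h4
        · exact sub_eq_zero.1 h4
        · exact absurd h4 hχ'
      exact Units.ext h2
    have heq : χ.ker = χ'.ker := by
      by_contra hne'
      have hlt : χ.ker < χ'.ker := lt_of_le_of_ne hle hne'
      have h1 := hmK' _ hlt
      have h2 : (Nat.card χ'.ker : k) * ww b ρ χ' m i = 0 := by
        have h3 : ∑ g' : G with g' ∈ χ'.ker, ∑ g : G, (((χ' g)⁻¹ : kˣ) : k) *
            algebraMap (ZMod p) k (b.repr (ρ (g' * g) m) i) = 0 := by
          rw [Finset.sum_comm]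
          refine Finset.sum_eq_zero fun g _ => ?_
          rw [← Finset.mul_sum, ← map_sum, ← Finsupp.finsetSum_apply, ← map_sum]
          have h4 : ∑ g' : G with g' ∈ χ'.ker, ρ (g' * g) m = 0 := by
            have h5 : ∀ g', ρ (g' * g) m = ρ g (ρ g' m) := by
              intro g'
              rw [mul_comm, map_mul]
              rfl
            simp only [h5]
            have h1' : ∑ g' : G with g' ∈ χ'.ker, ρ g' m = 0 := by convert h1
            rw [← map_sum, h1', map_zero]
          rw [h4]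
          simp
        simp only [ww_smul] at h3
        rw [← h3]
        have h6 : ∀ g' ∈ Finset.univ.filter (fun g' : G => g' ∈ χ'.ker),
            ((χ' g' : kˣ) : k) * ww b ρ χ' m i = ww b ρ χ' m i := by
          intro g' hg'
          rw [Finset.mem_filter] at hg'
          rw [MonoidHom.mem_ker.1 hg'.2, Units.val_one, one_mul]
        rw [Finset.sum_congr rfl h6, Finset.sum_const, nsmul_eq_mul]
        congr 2
        rw [Nat.card_eq_fintype_card, Fintype.card_subtype]
      rcases mul_eq_zero.1 h2 with h3 | h3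
      · have h4 : Nat.card χ'.ker ∣ Nat.card G := Subgroup.card_subgroup_dvd_card _
        rw [CharP.cast_eq_zero_iff k p] at h3
        exact hpG (h3.trans h4)
      · exact hχ' h3
    -- χ' is a Frobenius conjugate of χ
    obtain ⟨t, ht⟩ := char_conj (p := p) hgen χ χ' heq
    intro h0
    apply hχ'
    rw [ht, ww_frob_iter, h0]
    simp [hpf.out.ne_zero]
  choose! m hm using hcomp
  -- linear independence
  have hlin : LinearIndependent k
      (fun χ : {χ : G →* kˣ // χ ≠ 1} => (ww b ρ χ.1 (m χ.1) : _ → k)) := by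
    rw [Fintype.linearIndependent_iff]
    intro c hc
    have hded := linearIndependent_monoidHom G k
    have hded' : LinearIndependent k (fun χ : {χ : G →* kˣ // χ ≠ 1} =>
        (((Units.coeHom k).comp χ.1 : G →* k) : G → k)) := by
      refine hded.comp (fun χ : {χ : G →* kˣ // χ ≠ 1} => (Units.coeHom k).comp χ.1) ?_
      intro χ χ' hχ
      apply Subtype.ext
      ext g
      exact DFunLike.congr_fun hχ g
    rw [Fintype.linearIndependent_iff] at hded'
    -- the relation at all translates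
    have key : ∀ h : G, ∀ j, ∑ χ : {χ : G →* kˣ // χ ≠ 1},
        c χ * (((χ.1 h : kˣ) : k) * ww b ρ χ.1 (m χ.1) j) = 0 := by
      intro h j
      -- apply the linear map given by `ρ h` on coordinates
      have h1 : ∀ χ : {χ : G →* kˣ // χ ≠ 1}, ((χ.1 h : kˣ) : k) * ww b ρ χ.1 (m χ.1) j =
          ∑ i, algebraMap (ZMod p) k (b.repr (ρ h (b i)) j) * ww b ρ χ.1 (m χ.1) i := by
        intro χ
        rw [← ww_smul]
        simp only [ww, Finset.mul_sum]
        rw [Finset.sum_comm]
        refine Finset.sum_congr rfl fun g _ => ?_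
        have h2 : b.repr (ρ (h * g) (m χ.1)) j =
            ∑ i, b.repr (ρ g (m χ.1)) i * b.repr (ρ h (b i)) j := by
          have h3 : ρ (h * g) (m χ.1) = ρ h (ρ g (m χ.1)) := by
            rw [map_mul]
            rfl
          rw [h3]
          conv_lhs => rw [← b.sum_repr (ρ g (m χ.1))]
          rw [map_sum, map_sum, Finsupp.finsetSum_apply]
          refine Finset.sum_congr rfl fun i _ => ?_
          have h4 : ρ h (b.repr (ρ g (m χ.1)) i • b i) =
              b.repr (ρ g (m χ.1)) i • ρ h (b i) :=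
            ((ρ h).toZModLinearMap p).map_smul _ _
          rw [h4, map_smul, Finsupp.smul_apply, smul_eq_mul]
        rw [h2, map_sum, Finset.mul_sum]
        refine Finset.sum_congr rfl fun i _ => ?_
        rw [map_mul]
        ring
      simp only [h1, Finset.mul_sum]
      rw [Finset.sum_comm]
      refine Finset.sum_eq_zero fun i _ => ?_
      have h5 := congrFun hc i
      rw [Finset.sum_apply] at h5
      simp only [Pi.smul_apply, smul_eq_mul, Pi.zero_apply] at h5
      have h6 : ∀ χ : {χ : G →* kˣ // χ ≠ 1},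
          c χ * (algebraMap (ZMod p) k (b.repr (ρ h (b i)) j) * ww b ρ χ.1 (m χ.1) i) =
          algebraMap (ZMod p) k (b.repr (ρ h (b i)) j) * (c χ * ww b ρ χ.1 (m χ.1) i) := by
        intro χ
        ring
      simp only [h6]
      rw [← Finset.mul_sum, h5, mul_zero]
    intro χ
    obtain ⟨j, hj⟩ : ∃ j, ww b ρ χ.1 (m χ.1) j ≠ 0 := by
      by_contra hcon
      push Not at hcon
      exact hm χ.1 χ.2 (funext hcon)
    have h7 := hded' (fun χ => c χ * ww b ρ χ.1 (m χ.1) j) (by
      ext h
      rw [Finset.sum_apply, Pi.zero_apply, ← key h j]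
      refine Finset.sum_congr rfl fun χ _ => ?_
      rw [Pi.smul_apply, smul_eq_mul]
      show _ * ((χ.1 h : kˣ) : k) = _
      ring) χ
    rcases mul_eq_zero.1 h7 with h8 | h8
    · exact h8
    · exact absurd h8 hj
  have hle := hlin.fintype_card_le_finrank
  rw [Module.finrank_fintype_fun_eq_card, Fintype.card_fin] at hle
  rw [Fintype.card_subtype_compl, Fintype.card_subtype_eq, hcardχ] at hle
  exact hle

open Classical in
theorem rank_ge {p : ℕ} [hpf : Fact p.Prime] {G : Type*} [CommGroup G] [Fintype G]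
    (hpG : ¬ p ∣ Nat.card G)
    (hgen : ∀ d, d ∣ Monoid.exponent G → ∀ i, Nat.Coprime i d → ∃ t, p ^ t ≡ i [MOD d])
    {M : Type*} [AddCommGroup M] [Finite M] (hpM : ∀ x : M, p • x = 0)
    (ρ : G →* AddMonoid.End M)
    (h : ∀ K : Subgroup G, IsCyclic (G ⧸ K) → K ≠ ⊤ → ∃ m : M, m ≠ 0 ∧ (∀ g ∈ K, ρ g m = m) ∧
      ∀ K' : Subgroup G, K < K' → ∑ g : G with g ∈ K', ρ g m = 0) :
    p ^ (Nat.card G - 1) ≤ Nat.card M := by
  have hcharP : CharP (AlgebraicClosure (ZMod p)) p :=
    charP_of_injective_algebraMap (algebraMap (ZMod p) (AlgebraicClosure (ZMod p))).injective p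
  have hexp0 : ((Monoid.exponent G : ℕ) : AlgebraicClosure (ZMod p)) ≠ 0 := by
    rw [Ne, CharP.cast_eq_zero_iff _ p]
    exact fun h => hpG (h.trans Group.exponent_dvd_nat_card)
  have hne : NeZero ((Monoid.exponent G : ℕ) : AlgebraicClosure (ZMod p)) := ⟨hexp0⟩
  let _ : Module (ZMod p) M := AddCommGroup.zmodModule hpM
  exact rank_ge_aux (AlgebraicClosure (ZMod p)) hcharP inferInstance hpG hgen ρ h

end Vale.Agent.P024.H157
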