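import Vale.Agent.P024.H157.Clo3A

/-!
The lower bound for a quotient of two stable subgroups.
-/

namespace Vale.Agent.P024.H157

open Subgroup

open Classical in
theorem rank_ge_quot {p : ℕ} [hpf : Fact p.Prime] {G : Type*} [CommGroup G] [Fintype G]
    (hpG : ¬ p ∣ Nat.card G)
    (hgen : ∀ d, d ∣ Monoid.exponent G → ∀ i, Nat.Coprime i d → ∃ t, p ^ t ≡ i [MOD d])
    {A : Type*} [CommGroup A] (τ : G →* MulAut A) (P Q : Subgroup A) (hQP : Q ≤ P)
    (hP : ∀ g, ∀ a ∈ P, τ g a ∈ P) (hQ : ∀ g, ∀ a ∈ Q, τ g a ∈ Q)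
    (hp : ∀ a ∈ P, a ^ p ∈ Q) (hfin : Q.relIndex P ≠ 0)
    (h : ∀ K : Subgroup G, IsCyclic (G ⧸ K) → K ≠ ⊤ → ∃ a ∈ P, a ∉ Q ∧ (∀ g ∈ K, τ g a = a) ∧
      ∀ K' : Subgroup G, K < K' → ∏ g : G with g ∈ K', τ g a = 1) :
    p ^ (Nat.card G - 1) ≤ Q.relIndex P := by
  let r : G → P →* P := fun g => ((τ g).toMonoidHom.comp P.subtype).codRestrict P
    (fun a => hP g a.1 a.2)
  have hr : ∀ g (a : P), ((r g a : P) : A) = τ g a := fun g a => rfl
  have hrQ : ∀ g, Q.subgroupOf P ≤ (Q.subgroupOf P).comap (r g) := by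
    intro g a ha
    exact hQ g _ ha
  let R : G → (P ⧸ Q.subgroupOf P) →* (P ⧸ Q.subgroupOf P) := fun g =>
    QuotientGroup.map (Q.subgroupOf P) (Q.subgroupOf P) (r g) (hrQ g)
  have hR : ∀ g (a : P), R g (QuotientGroup.mk a) = QuotientGroup.mk (r g a) := fun g a => rfl
  have hsurj : ∀ x : Additive (P ⧸ Q.subgroupOf P), ∃ a : P,
      Additive.ofMul (QuotientGroup.mk a : P ⧸ Q.subgroupOf P) = x := by
    intro x
    obtain ⟨a, ha⟩ := QuotientGroup.mk_surjective x.toMul
    exact ⟨a, congrArg Additive.ofMul ha⟩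
  let ρ : G →* AddMonoid.End (Additive (P ⧸ Q.subgroupOf P)) :=
    { toFun := fun g => MonoidHom.toAdditive (R g)
      map_one' := by
        refine AddMonoidHom.ext fun x => ?_
        obtain ⟨a, rfl⟩ := hsurj x
        show Additive.ofMul (QuotientGroup.mk (r 1 a) : P ⧸ Q.subgroupOf P) =
          Additive.ofMul (QuotientGroup.mk a)
        congr 2
        apply Subtype.ext
        rw [hr, map_one]
        rfl
      map_mul' := by
        intro g g'
        refine AddMonoidHom.ext fun x => ?_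
        obtain ⟨a, rfl⟩ := hsurj x
        show Additive.ofMul (QuotientGroup.mk (r (g * g') a) : P ⧸ Q.subgroupOf P) =
          Additive.ofMul (QuotientGroup.mk (r g (r g' a)))
        congr 2
        apply Subtype.ext
        rw [hr, hr, hr, map_mul]
        rfl }
  have hρ : ∀ g (a : P), ρ g (Additive.ofMul (QuotientGroup.mk a : P ⧸ Q.subgroupOf P)) =
      Additive.ofMul (QuotientGroup.mk (r g a) : P ⧸ Q.subgroupOf P) := fun g a => rfl
  have hfin' : Finite (P ⧸ Q.subgroupOf P) := by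
    apply Nat.finite_of_card_ne_zero
    exact hfin
  have key := rank_ge (M := Additive (P ⧸ Q.subgroupOf P)) hpG hgen ?_ ρ ?_
  · exact key
  · intro x
    obtain ⟨a, rfl⟩ := hsurj x
    rw [← ofMul_pow, ← QuotientGroup.mk_pow, ofMul_eq_zero, QuotientGroup.eq_one_iff,
      mem_subgroupOf]
    exact hp a a.2
  · intro K hK hK'
    obtain ⟨a, haP, haQ, ha1, ha2⟩ := h K hK hK'
    refine ⟨Additive.ofMul (QuotientGroup.mk (⟨a, haP⟩ : P)), ?_, ?_, ?_⟩
    · rw [Ne, ofMul_eq_zero, QuotientGroup.eq_one_iff, mem_subgroupOf]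
      exact haQ
    · intro g hg
      rw [hρ]
      congr 2
      apply Subtype.ext
      rw [hr]
      exact ha1 g hg
    · intro K' hKK'
      simp only [hρ]
      rw [← ofMul_prod, ofMul_eq_zero, ← QuotientGroup.mk_prod, QuotientGroup.eq_one_iff,
        mem_subgroupOf]
      have h1 : ((∏ g : G with g ∈ K', r g ⟨a, haP⟩ : P) : A) = 1 := by
        rw [Subgroup.val_finset_prod]
        simp only [hr]
        exact ha2 K' hKK'
      rw [h1]
      exact one_mem Q

end Vale.Agent.P024.H157
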