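import Vale.Agent.P024.H157.Clo3B
import Vale.Agent.P024.H379.Multi

/-!
The closure index for totally real abelian fields of exponent `e` and primes which generate
`(ℤ/e)ˣ`.
-/

namespace Vale.Agent.P024.H157

open NumberField Finset Subgroup Vale.Agent.P024.H379

section

variable {F : Type*} [Field F] [NumberField F]

/-- the action on units as automorphisms -/
noncomputable def actA (F : Type*) [Field F] [NumberField F] : (F ≃ₐ[ℚ] F) →* MulAut (𝓞 F)ˣ where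
  toFun g := Units.mapEquiv (RingOfIntegers.mapRingEquiv (g : F ≃+* F) : 𝓞 F ≃* 𝓞 F)
  map_one' := by
    ext x
    rfl
  map_mul' a b := by
    ext x
    rfl

theorem actA_apply (g : F ≃ₐ[ℚ] F) (u : (𝓞 F)ˣ) : actA F g u = act g u := rfl

theorem act_act (g h : F ≃ₐ[ℚ] F) (u : (𝓞 F)ˣ) : act g (act h u) = act (g * h) u := rfl

/-- the norm on units -/
noncomputable def nU (F : Type*) [Field F] [NumberField F] : (𝓞 F)ˣ →* (𝓞 F)ˣ :=
  ∏ g : F ≃ₐ[ℚ] F, act g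

theorem nU_apply (u : (𝓞 F)ˣ) : nU F u = ∏ g : F ≃ₐ[ℚ] F, act g u := by
  rw [nU, MonoidHom.finsetProd_apply]

theorem act_nU (g : F ≃ₐ[ℚ] F) (u : (𝓞 F)ˣ) : nU F (act g u) = nU F u := by
  rw [nU_apply, nU_apply]
  simp only [act_act]
  exact Fintype.prod_equiv (Equiv.mulRight g) _ _ fun h => rfl

theorem norm_of_nU [IsGalois ℚ F] {u : (𝓞 F)ˣ} (h : nU F u = 1) :
    Algebra.norm ℤ (u : 𝓞 F) = 1 := by
  have h1 : ((Algebra.norm ℤ (u : 𝓞 F) : ℤ) : ℚ) = Algebra.norm ℚ ((u : 𝓞 F) : F) :=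
    Algebra.coe_norm_int _
  have h2 : algebraMap ℚ F (Algebra.norm ℚ ((u : 𝓞 F) : F)) = 1 := by
    rw [Algebra.norm_eq_prod_automorphisms]
    have h3 : (((nU F u : (𝓞 F)ˣ) : 𝓞 F) : F) = 1 := by
      rw [h]
      exact cone
    rw [← h3, nU_apply, Units.coe_prod]
    have h4 : ((∏ g : F ≃ₐ[ℚ] F, ((act g u : (𝓞 F)ˣ) : 𝓞 F) : 𝓞 F) : F) =
        ∏ g : F ≃ₐ[ℚ] F, (((act g u : (𝓞 F)ˣ) : 𝓞 F) : F) :=
      map_prod (algebraMap (𝓞 F) F) _ _
    rw [h4]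
    rfl
  have h5 : Algebra.norm ℚ ((u : 𝓞 F) : F) = 1 := by
    apply (algebraMap ℚ F).injective
    rw [h2, map_one]
  rw [h5] at h1
  exact_mod_cast h1

/-- norm one units congruent to one -/
noncomputable def Pk (F : Type*) [Field F] [NumberField F] (p s : ℕ) : Subgroup (𝓞 F)ˣ :=
  (nU F).ker ⊓ Ck F p s

theorem Ck_mono {p s t : ℕ} (h : s ≤ t) : Ck F p t ≤ Ck F p s := by
  intro u hu
  rw [mem_Ck] at hu ⊢
  exact (pow_dvd_pow _ h).trans hu

theorem Pk_mono {p s t : ℕ} (h : s ≤ t) : Pk F p t ≤ Pk F p s :=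
  inf_le_inf_left _ (Ck_mono h)

theorem Ck_index {p : ℕ} (hp : p.Prime) (k : ℕ) : (Ck F p k).index ≠ 0 := by
  have hfin : Finite (𝓞 F ⧸ Ideal.span {(p : 𝓞 F) ^ k}) := by
    apply Nat.finite_of_card_ne_zero
    rw [card_quot]
    exact pow_ne_zero _ hp.ne_zero
  rw [Ck, Subgroup.index_ker]
  exact Nat.card_pos.ne'

theorem Ck_relIndex {p : ℕ} (hp : p.Prime) (k : ℕ) (V : Subgroup (𝓞 F)ˣ) :
    (Ck F p k).relIndex V ≠ 0 := by
  intro h
  exact Ck_index (F := F) hp k (Subgroup.index_eq_zero_of_relIndex_eq_zero h)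

theorem Pk_relIndex {p s t : ℕ} (h : s ≤ t) :
    (Pk F p t).relIndex (Pk F p s) = (Ck F p t).relIndex (Pk F p s) := by
  rw [← inf_relIndex_right (Ck F p t)]
  congr 1
  rw [Pk, Pk]
  apply le_antisymm
  · exact le_inf inf_le_right (inf_le_inf_left _ (Ck_mono h))
  · exact le_inf (inf_le_right.trans inf_le_left) inf_le_left

theorem pow_p_mem {p s : ℕ} (hs : 1 ≤ s) {u : (𝓞 F)ˣ} (hu : u ∈ Ck F p s) :
    u ^ p ∈ Ck F p (s + 1) := by
  rw [mem_Ck] at hu ⊢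
  rw [Units.val_pow_eq_pow_val, ← mul_geom_sum, pow_succ]
  refine mul_dvd_mul hu ?_
  have h1 : (p : 𝓞 F) ∣ (u : 𝓞 F) - 1 := (dvd_pow_self _ (by omega)).trans hu
  have h2 : ∀ i, (p : 𝓞 F) ∣ (u : 𝓞 F) ^ i - 1 := fun i => h1.trans (sub_one_dvd_pow_sub_one _ i)
  have h3 : ∑ i ∈ range p, (u : 𝓞 F) ^ i = ∑ i ∈ range p, ((u : 𝓞 F) ^ i - 1) + (p : 𝓞 F) := by
    rw [Finset.sum_sub_distrib]
    simp
  rw [h3]
  exact dvd_add (Finset.dvd_sum fun i _ => h2 i) dvd_rfl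

/-- the closure index, with the units given -/
theorem clo_gen [IsGalois ℚ F] (hab : ∀ g h : F ≃ₐ[ℚ] F, g * h = h * g)
    (p : ℕ) (hp : p.Prime) (hp2 : p ≠ 2) (hpG : ¬ p ∣ Nat.card (F ≃ₐ[ℚ] F))
    (hgen : ∀ d, d ∣ Monoid.exponent (F ≃ₐ[ℚ] F) → ∀ i, Nat.Coprime i d →
      ∃ t, p ^ t ≡ i [MOD d])
    (hU : ∀ K : Subgroup (F ≃ₐ[ℚ] F), K.Normal → (∃ s : F ≃ₐ[ℚ] F, ∀ g, ∃ j : ℤ, g * s ^ j ∈ K) →
      K ≠ ⊤ → ∃ ε : (𝓞 F)ˣ, (∀ n : ℕ, 0 < n → ε ^ n ≠ 1) ∧ (∀ g ∈ K, act g ε = ε) ∧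
        ∀ K' : Subgroup (F ≃ₐ[ℚ] F), K < K' → ∀ (s : Finset (F ≃ₐ[ℚ] F)),
          (∀ g, g ∈ s ↔ g ∈ K') → ∏ g ∈ s, act g ε = 1)
    (x : 𝓞 F) (hx1 : 1 < (Ideal.span {x}).absNorm)
    (hxp : Nat.Coprime (Ideal.span {x}).absNorm p) :
    ∃ C : ℕ, 0 < C ∧ ∀ k : ℕ, ∀ H : Subgroup (𝓞 F ⧸ Ideal.span {(p : 𝓞 F) ^ k})ˣ,
      (∀ (u : (𝓞 F ⧸ Ideal.span {(p : 𝓞 F) ^ k})ˣ) (y : 𝓞 F),
        (u : 𝓞 F ⧸ Ideal.span {(p : 𝓞 F) ^ k}) = Ideal.Quotient.mk _ y → (IsUnit y ∨ y = x) →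
          u ∈ H) →
      H.index ≠ 0 ∧ H.index ≤ C := by
  classical
  have hpf : Fact p.Prime := ⟨hp⟩
  have hodd : Odd p := hp.odd_of_ne_two hp2
  have hp0 : ((p : ℕ) : 𝓞 F) ≠ 0 := by exact_mod_cast hp.ne_zero
  have hpZ : ((p : ℕ) : ℤ) ≠ 0 := by exact_mod_cast hp.ne_zero
  let GI : CommGroup (F ≃ₐ[ℚ] F) := { (inferInstance : Group (F ≃ₐ[ℚ] F)) with mul_comm := hab }
  obtain ⟨M, hM, hMp⟩ := exists_exp (F := F) p hp
  -- the good units
  have hgood : ∀ K : Subgroup (F ≃ₐ[ℚ] F), ∃ c : ℕ, IsCyclic ((F ≃ₐ[ℚ] F) ⧸ K) → K ≠ ⊤ →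
      ∀ s, c ≤ s → ∃ a ∈ Pk F p s, a ∉ Pk F p (s + 1) ∧ (∀ g ∈ K, actA F g a = a) ∧
        ∀ K' : Subgroup (F ≃ₐ[ℚ] F), K < K' → ∏ g : F ≃ₐ[ℚ] F with g ∈ K', actA F g a = 1 := by
    intro K
    by_cases hK : IsCyclic ((F ≃ₐ[ℚ] F) ⧸ K) ∧ K ≠ ⊤
    · obtain ⟨hK1, hK2⟩ := hK
      obtain ⟨s₀, hs₀⟩ := hK1.exists_generator
      obtain ⟨s₀, rfl⟩ := QuotientGroup.mk_surjective s₀
      obtain ⟨ε, hε1, hε2, hε3⟩ := hU K inferInstance ⟨s₀, by
        intro g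
        obtain ⟨j, hj⟩ := hs₀ (QuotientGroup.mk g)
        refine ⟨-j, ?_⟩
        rw [← QuotientGroup.eq_one_iff, QuotientGroup.mk_mul, QuotientGroup.mk_zpow, ← hj]
        show (QuotientGroup.mk s₀ : (F ≃ₐ[ℚ] F) ⧸ K) ^ j * (QuotientGroup.mk s₀) ^ (-j) = 1
        rw [zpow_neg, mul_inv_cancel]⟩ hK2
      set z : (𝓞 F)ˣ := ε ^ M with hz
      have hzp : (p : 𝓞 F) ∣ (z : 𝓞 F) - 1 := by
        rw [hz, Units.val_pow_eq_pow_val]
        exact hMp _ (ε.isUnit.map _)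
      have hz1 : (z : 𝓞 F) ≠ 1 := by
        intro h
        exact hε1 M hM (Units.ext h)
      obtain ⟨c, hc, hex⟩ := exists_ex (R := 𝓞 F) (p := p) (p_not_unit hp) hz1 hzp
      have hz2 : ∀ g ∈ K, act g z = z := by
        intro g hg
        rw [hz, map_pow, hε2 g hg]
      have hz3 : ∀ K' : Subgroup (F ≃ₐ[ℚ] F), K < K' →
          ∏ g : F ≃ₐ[ℚ] F with g ∈ K', act g z = 1 := by
        intro K' hK'
        have h1 := hε3 K' hK' (Finset.univ.filter (· ∈ K')) (by simp)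
        simp only [hz, map_pow]
        rw [Finset.prod_pow, h1, one_pow]
      refine ⟨c, fun _ _ s hs => ⟨z ^ p ^ (s - c), ?_, ?_, ?_, ?_⟩⟩
      · refine ⟨?_, ?_⟩
        · show nU F (z ^ p ^ (s - c)) = 1
          rw [map_pow]
          have h1 := hz3 ⊤ (lt_top_iff_ne_top.2 hK2)
          have h2 : nU F z = 1 := by
            rw [nU_apply, ← h1]
            refine Finset.prod_congr ?_ fun _ _ => rfl
            ext g
            simp
          rw [h2, one_pow]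
        · have h1 := ex_pow_pt hodd hp0 hc hex (s - c)
          rw [show c + (s - c) = s by omega] at h1
          show z ^ p ^ (s - c) ∈ Ck F p s
          rw [mem_Ck, Units.val_pow_eq_pow_val]
          exact h1.1
      · intro h
        have h1 := ex_pow_pt hodd hp0 hc hex (s - c)
        rw [show c + (s - c) = s by omega] at h1
        apply h1.2
        have h2 : z ^ p ^ (s - c) ∈ Ck F p (s + 1) := h.2
        rw [mem_Ck, Units.val_pow_eq_pow_val] at h2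
        exact h2
      · intro g hg
        rw [actA_apply, map_pow, hz2 g hg]
      · intro K' hK'
        simp only [actA_apply, map_pow]
        rw [Finset.prod_pow, hz3 K' hK', one_pow]
    · exact ⟨0, fun h1 h2 => absurd ⟨h1, h2⟩ hK⟩
  choose cK hcK using hgood
  have hfinG : Finite (Subgroup (F ≃ₐ[ℚ] F)) := inferInstance
  have : Fintype (Subgroup (F ≃ₐ[ℚ] F)) := Fintype.ofFinite _
  set c : ℕ := (Finset.univ.sup cK) + 1 with hc
  have hcle : ∀ K, cK K ≤ c := fun K => (Finset.le_sup (Finset.mem_univ K)).trans (by omega)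
  set n := Nat.card (F ≃ₐ[ℚ] F) with hn
  -- one step
  have hstep : ∀ s, c ≤ s → p ^ (n - 1) ≤ (Pk F p (s + 1)).relIndex (Pk F p s) := by
    intro s hs
    refine rank_ge_quot (G := F ≃ₐ[ℚ] F) hpG hgen (actA F) (Pk F p s) (Pk F p (s + 1))
      (Pk_mono (by omega)) ?_ ?_ ?_ ?_ ?_
    · rintro g a ⟨ha1, ha2⟩
      refine ⟨?_, ?_⟩
      · show nU F (act g a) = 1
        rw [act_nU]
        exact ha1
      · exact act_Ck g ha2
    · rintro g a ⟨ha1, ha2⟩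
      refine ⟨?_, ?_⟩
      · show nU F (act g a) = 1
        rw [act_nU]
        exact ha1
      · exact act_Ck g ha2
    · rintro a ⟨ha1, ha2⟩
      refine ⟨?_, pow_p_mem (by omega) ha2⟩
      show nU F (a ^ p) = 1
      rw [map_pow, MonoidHom.mem_ker.1 ha1, one_pow]
    · rw [Pk_relIndex (by omega)]
      exact Ck_relIndex hp _ _
    · intro K hK hK'
      obtain ⟨a, ha1, ha2, ha3, ha4⟩ := hcK K hK hK' s ((hcle K).trans hs)
      refine ⟨a, ha1, ha2, ha3, fun K' hKK' => ?_⟩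
      convert ha4 K' hKK'
  -- all steps
  have hsteps : ∀ j, p ^ ((n - 1) * j) ≤ (Pk F p (c + j)).relIndex (Pk F p c) := by
    intro j
    induction j with
    | zero => simp
    | succ j ih =>
      have h1 := relIndex_mul_relIndex (Pk F p (c + j + 1)) (Pk F p (c + j)) (Pk F p c)
        (Pk_mono (by omega)) (Pk_mono (by omega))
      rw [← add_assoc, ← h1, mul_add, mul_one, add_comm, pow_add]
      exact Nat.mul_le_mul (hstep (c + j) (by omega)) ih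
  -- the number `Q`
  have hxu := unit_of_norm (F := F) hxp
  set Q : ℤ := Algebra.norm ℤ x ^ (2 * M) with hQ
  have hnx : (Ideal.span {x}).absNorm = (Algebra.norm ℤ x).natAbs := Ideal.absNorm_span_singleton x
  have hQ1 : Q ≠ 1 := by
    intro h
    have h1 := congrArg Int.natAbs h
    rw [hQ, Int.natAbs_pow, ← hnx, Int.natAbs_one] at h1
    exact absurd h1 (Nat.one_lt_pow (by omega) hx1).ne'
  have hQp : ((p : ℕ) : ℤ) ∣ Q - 1 := by
    have h1 : (p : 𝓞 F) ∣ x ^ (2 * M) - 1 := by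
      rw [pow_mul', show (x ^ M) ^ 2 - 1 = (x ^ M - 1) * (x ^ M + 1) by ring]
      exact (hMp x (hxu 1)).mul_right _
    have h2 := norm_congr (F := F) p h1
    rwa [map_pow, map_one] at h2
  obtain ⟨s1, hs1', hex1⟩ := exists_ex (R := ℤ) (p := p)
    (by rw [Int.isUnit_iff]; have := hp.one_lt; omega) hQ1 hQp
  have hnF : n = Module.finrank ℚ F := IsGalois.card_aut_eq_finrank ℚ F
  have hn0 : 0 < n := by rw [hnF]; exact Module.finrank_pos
  set c' := max c s1 with hc'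
  refine ⟨p ^ (Module.finrank ℚ F * c'), pow_pos hp.pos _, fun k H hH => ?_⟩
  have hfin : Finite (𝓞 F ⧸ Ideal.span {(p : 𝓞 F) ^ k}) := by
    apply Nat.finite_of_card_ne_zero
    rw [card_quot]
    exact pow_ne_zero _ hp.ne_zero
  refine ⟨Subgroup.index_ne_zero_of_finite, ?_⟩
  set K := k - c' with hK
  let f : (𝓞 F)ˣ →* (𝓞 F ⧸ Ideal.span {(p : 𝓞 F) ^ k})ˣ :=
    Units.map (Ideal.Quotient.mk (Ideal.span {(p : 𝓞 F) ^ k})).toMonoidHom
  have hfv : ∀ u : (𝓞 F)ˣ, (f u : 𝓞 F ⧸ Ideal.span {(p : 𝓞 F) ^ k}) =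
    Ideal.Quotient.mk _ (u : 𝓞 F) := fun u => rfl
  let W : Subgroup (𝓞 F ⧸ Ideal.span {(p : 𝓞 F) ^ k})ˣ := (Pk F p c).map f
  have hW : p ^ ((n - 1) * K) ≤ Nat.card W := by
    have h1 : (Ck F p k).relIndex (Pk F p c) = Nat.card W :=
      relIndex_ker (K := Pk F p c) (Units.map (Ideal.Quotient.mk (Ideal.span {(p : 𝓞 F) ^ k})).toMonoidHom)
    rcases Nat.le_total c k with hck | hck
    · rw [← h1, ← Pk_relIndex hck]
      have h2 := hsteps (k - c)
      rw [show c + (k - c) = k by omega] at h2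
      refine le_trans (Nat.pow_le_pow_right hp.pos (Nat.mul_le_mul_left _ ?_)) h2
      omega
    · rw [show K = 0 by omega, mul_zero, pow_zero]
      exact Nat.card_pos
  obtain ⟨ux, hux⟩ := hxu k
  have hxH : ux ∈ H := hH ux x hux (Or.inr rfl)
  have hWH : ∀ w : W, (w : (𝓞 F ⧸ Ideal.span {(p : 𝓞 F) ^ k})ˣ) ∈ H := by
    rintro ⟨w, u, hu, rfl⟩
    exact hH _ (u : 𝓞 F) (hfv u) (Or.inl u.isUnit)
  let Φ : W × Fin (p ^ K) → H := fun ab =>
    ⟨(ab.1 : (𝓞 F ⧸ Ideal.span {(p : 𝓞 F) ^ k})ˣ) * ux ^ (2 * M * (ab.2 : ℕ)),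
      H.mul_mem (hWH _) (H.pow_mem hxH _)⟩
  have key : ∀ (w w' : W) (b b' : ℕ), b ≤ b' → b' < p ^ K →
      (w : (𝓞 F ⧸ Ideal.span {(p : 𝓞 F) ^ k})ˣ) * ux ^ (2 * M * b) = w' * ux ^ (2 * M * b') →
      w = w' ∧ b = b' := by
    rintro ⟨w, u, hu, rfl⟩ ⟨w', u', hu', rfl⟩ b b' hbb hb' h
    have h1 := congrArg Units.val h
    simp only [Units.val_mul, Units.val_pow_eq_pow_val, hux, hfv] at h1
    rw [← map_pow, ← map_pow, ← map_mul, ← map_mul] at h1
    have h2 := dvd_of_quot h1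
    have h3 : ((p ^ k : ℕ) : ℤ) ∣ Algebra.norm ℤ ((u : 𝓞 F) * x ^ (2 * M * b))
        - Algebra.norm ℤ ((u' : 𝓞 F) * x ^ (2 * M * b')) := by
      apply norm_congr
      push_cast
      exact h2
    have h4 : ∀ (u : (𝓞 F)ˣ) (b : ℕ), u ∈ Pk F p c →
        Algebra.norm ℤ ((u : 𝓞 F) * x ^ (2 * M * b)) = Q ^ b := by
      intro u b hu
      rw [map_mul, norm_of_nU (MonoidHom.mem_ker.1 hu.1), one_mul, map_pow, hQ, ← pow_mul]
    rw [h4 u b hu, h4 u' b' hu'] at h3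
    have h5 : b = b' := by
      have h6 : (p : ℤ) ^ k ∣ Q ^ (b' - b) - 1 := by
        have h7 : Q ^ b - Q ^ b' = - (Q ^ b * (Q ^ (b' - b) - 1)) := by
          have : Q ^ b' = Q ^ b * Q ^ (b' - b) := by rw [← pow_add]; congr 1; omega
          rw [this]; ring
        rw [h7, dvd_neg] at h3
        have h8 : IsCoprime ((p : ℤ) ^ k) (Q ^ b) := by
          apply IsCoprime.pow
          rw [hQ]
          apply IsCoprime.pow_right
          apply Int.isCoprime_iff_gcd_eq_one.mpr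
          change Nat.gcd (p : ℤ).natAbs (Algebra.norm ℤ x).natAbs = 1
          rw [Int.natAbs_natCast, ← hnx]
          exact hxp.symm
        push_cast at h3
        exact h8.dvd_of_dvd_mul_left h3
      have h10 := dvd_exp hp hodd hpZ hs1' hex1 h6
      have h11 : p ^ K ∣ b' - b := (pow_dvd_pow p (by omega)).trans h10
      have h12 := Nat.eq_zero_of_dvd_of_lt h11 (by omega)
      omega
    subst h5
    exact ⟨Subtype.ext (mul_right_cancel h), rfl⟩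
  have hinj : Function.Injective Φ := by
    rintro ⟨a, b⟩ ⟨a', b'⟩ h
    have h1 : (a : (𝓞 F ⧸ Ideal.span {(p : 𝓞 F) ^ k})ˣ) * ux ^ (2 * M * (b : ℕ))
        = a' * ux ^ (2 * M * (b' : ℕ)) := congrArg Subtype.val h
    rcases le_total (b : ℕ) (b' : ℕ) with h' | h'
    · obtain ⟨h2, h3⟩ := key a a' b b' h' b'.2 h1
      exact Prod.ext h2 (Fin.ext h3)
    · obtain ⟨h2, h3⟩ := key a' a b' b h' b.2 h1.symm
      exact Prod.ext h2.symm (Fin.ext h3.symm)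
  have h := Nat.card_le_card_of_injective Φ hinj
  rw [Nat.card_prod, Nat.card_eq_fintype_card (α := Fin (p ^ K)), Fintype.card_fin] at h
  have h1 : p ^ (K * Module.finrank ℚ F) ≤ Nat.card H := by
    refine le_trans ?_ h
    have e1 : K * Module.finrank ℚ F = (n - 1) * K + K := by
      rw [← hnF]
      obtain ⟨m, hm⟩ : ∃ m, n = m + 1 := ⟨n - 1, by omega⟩
      rw [hm, Nat.add_sub_cancel]
      ring
    rw [e1, pow_add]
    exact Nat.mul_le_mul_right _ hW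
  have h2 := H.card_mul_index
  have h3 : Nat.card (𝓞 F ⧸ Ideal.span {(p : 𝓞 F) ^ k})ˣ ≤ p ^ (Module.finrank ℚ F * k) := by
    rw [← card_quot (F := F) p k]
    exact Nat.card_le_card_of_injective _ Units.val_injective
  have h4 : p ^ (K * Module.finrank ℚ F) * H.index
      ≤ p ^ (K * Module.finrank ℚ F) * p ^ (Module.finrank ℚ F * c') := by
    calc _ ≤ Nat.card H * H.index := Nat.mul_le_mul_right _ h1
      _ = _ := h2
      _ ≤ p ^ (Module.finrank ℚ F * k) := h3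
      _ ≤ _ := by
        rw [← pow_add]
        apply Nat.pow_le_pow_right hp.pos
        have : k ≤ K + c' := by omega
        calc Module.finrank ℚ F * k ≤ Module.finrank ℚ F * (K + c') :=
              Nat.mul_le_mul_left _ this
          _ = _ := by ring
  exact Nat.le_of_mul_le_mul_left h4 (pow_pos hp.pos _)

end

end Vale.Agent.P024.H157
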