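import Vale.Agent.P024.H157.Clo3C

/-!
The closure index for totally real abelian fields of prime exponent `l` and primes `p` which
generate `(ℤ/l)ˣ`.
-/

namespace Vale.Agent.P024.H157

open NumberField Finset Subgroup IsDedekindDomain Vale.Agent.P024.H379 Vale.Agent.P024.M3

/-- a generator of `(ℤ/l)ˣ` reaches all residues -/
theorem gen_of_orderOf {l p : ℕ} (hl : l.Prime) (hord : orderOf (p : ZMod l) = l - 1) (i : ℕ)
    (hi : Nat.Coprime i l) : ∃ t, p ^ t ≡ i [MOD l] := by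
  have : Fact l.Prime := ⟨hl⟩
  have hl2 := hl.two_le
  have hp0 : (p : ZMod l) ≠ 0 := by
    intro h
    rw [h] at hord
    have h1 : orderOf (0 : ZMod l) = 0 := by
      rw [orderOf_eq_zero_iff']
      intro n hn
      rw [zero_pow hn.ne']
      exact zero_ne_one
    omega
  set u : (ZMod l)ˣ := Units.mk0 (p : ZMod l) hp0 with hu
  have huo : orderOf u = l - 1 := by
    rw [← orderOf_units, hu, Units.val_mk0, hord]
  have htop : Subgroup.zpowers u = ⊤ := by
    apply Subgroup.eq_top_of_card_eq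
    rw [Nat.card_zpowers, huo, Nat.card_eq_fintype_card, ZMod.card_units]
  have hv : ZMod.unitOfCoprime i hi ∈ Subgroup.zpowers u := by
    rw [htop]
    exact mem_top _
  rw [← mem_powers_iff_mem_zpowers] at hv
  obtain ⟨t, ht⟩ := hv
  refine ⟨t, ?_⟩
  rw [← ZMod.natCast_eq_natCast_iff]
  have h1 := congrArg Units.val ht
  simp only [Units.val_pow_eq_pow_val, hu, Units.val_mk0, ZMod.coe_unitOfCoprime] at h1
  rw [Nat.cast_pow]
  exact h1

theorem eq_top_of_lt {G : Type*} [Group G] {l : ℕ} (hl : l.Prime) (hexp : ∀ g : G, g ^ l = 1)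
    {K K' : Subgroup G} {s : G} (hs : ∀ g, ∃ j : ℤ, g * s ^ j ∈ K) (h : K < K') : K' = ⊤ := by
  obtain ⟨hle, hne⟩ := SetLike.lt_iff_le_and_exists.1 h
  obtain ⟨g₀, hg₀, hg₀'⟩ := hne
  obtain ⟨j, hj⟩ := hs g₀
  have h1 : s ^ j ∈ K' := by
    have := K'.mul_mem (K'.inv_mem hg₀) (hle hj)
    rwa [inv_mul_cancel_left] at this
  have h2 : ¬ (l : ℤ) ∣ j := by
    rintro ⟨m, rfl⟩
    apply hg₀'
    rw [zpow_mul, zpow_natCast, hexp, one_zpow, mul_one] at hj
    exact hj
  have h3 : IsCoprime j (l : ℤ) := by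
    rw [isCoprime_comm]
    exact (Nat.prime_iff_prime_int.1 hl).coprime_iff_not_dvd.2 h2
  obtain ⟨a, b, hab⟩ := h3
  have h4 : s ∈ K' := by
    have h5 : s = (s ^ j) ^ a := by
      calc s = s ^ (a * j + b * l) := by rw [hab, zpow_one]
        _ = (s ^ j) ^ a * (s ^ (l : ℤ)) ^ b := by
          rw [zpow_add, ← zpow_mul, ← zpow_mul, mul_comm a j, mul_comm b (l : ℤ)]
        _ = (s ^ j) ^ a := by rw [zpow_natCast, hexp, one_zpow, mul_one]
    rw [h5]
    exact K'.zpow_mem h1 a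
  rw [eq_top_iff]
  intro g _
  obtain ⟨j, hj⟩ := hs g
  have h6 := K'.mul_mem (hle hj) (K'.inv_mem (K'.zpow_mem h4 j))
  rwa [mul_inv_cancel_right] at h6

section

variable {F : Type*} [Field F] [NumberField F]

/-- a unit of infinite order with given fixing subgroup and norm one -/
theorem exists_unit_fix [IsTotallyReal F] [IsGalois ℚ F] (K : Subgroup (F ≃ₐ[ℚ] F)) (hK : K ≠ ⊤) :
    ∃ ε : (𝓞 F)ˣ, (∀ n : ℕ, 0 < n → ε ^ n ≠ 1) ∧ (∀ g ∈ K, act g ε = ε) ∧ nU F ε = 1 := by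
  classical
  let E : IntermediateField ℚ F := IntermediateField.fixedField K
  have hE2 : 1 < Module.finrank ℚ E := by
    have h1 : Module.finrank E F = Nat.card K := IntermediateField.finrank_fixedField_eq_card K
    have h2 : Module.finrank ℚ E * Module.finrank E F = Module.finrank ℚ F :=
      Module.finrank_mul_finrank ℚ E F
    have h3 := K.card_mul_index
    rw [IsGalois.card_aut_eq_finrank, ← h2, h1, mul_comm] at h3
    have h7 : 0 < Nat.card K := Nat.card_pos
    have h8 : K.index = Module.finrank ℚ E := Nat.eq_of_mul_eq_mul_right h7 h3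
    have h9 : K.index ≠ 1 := fun h => hK (Subgroup.index_eq_one.1 h)
    have h10 : 0 < Module.finrank ℚ E := Module.finrank_pos
    omega
  have hEr : IsTotallyReal E := IsTotallyReal.of_algebra (F := E) (K := F)
  have hr : 0 < Units.rank E := by
    have h3 : Fintype.card (InfinitePlace E) = Module.finrank ℚ E := by
      rw [InfinitePlace.card_eq_nrRealPlaces_add_nrComplexPlaces,
        IsTotallyReal.nrComplexPlaces_eq_zero, add_zero, ← IsTotallyReal.finrank]
    rw [Units.rank, h3]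
    omega
  obtain ⟨ε0, hε0⟩ := exists_unit_inf E hr
  let ε : (𝓞 F)ˣ := Units.map (RingOfIntegers.mapRingHom (algebraMap E F)).toMonoidHom ε0
  have hεv : ((ε : 𝓞 F) : F) = (((ε0 : 𝓞 E) : E) : F) := rfl
  have hε : ∀ n : ℕ, 0 < n → ε ^ n ≠ 1 := by
    intro n hn h
    apply hε0 n hn
    have h1 : (((ε ^ n : (𝓞 F)ˣ) : 𝓞 F) : F) = (((1 : (𝓞 F)ˣ) : 𝓞 F) : F) := by rw [h]
    rw [Units.val_pow_eq_pow_val, cpow, Units.val_one, cone, hεv] at h1
    apply Units.ext
    apply RingOfIntegers.ext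
    rw [Units.val_pow_eq_pow_val, cpow, Units.val_one, cone]
    apply Subtype.ext
    rw [SubmonoidClass.coe_pow]
    exact h1
  have hfix : ∀ g ∈ K, g ((ε : 𝓞 F) : F) = ((ε : 𝓞 F) : F) := by
    intro g hg
    exact (IntermediateField.mem_fixedField_iff _ _).mp ((ε0 : 𝓞 E) : E).2 g hg
  refine ⟨ε ^ 2, ?_, ?_, ?_⟩
  · intro n hn h
    rw [← pow_mul] at h
    exact hε _ (by omega) h
  · intro g hg
    have : act g ε = ε := by
      apply Units.ext
      apply RingOfIntegers.ext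
      rw [act_val]
      exact hfix g hg
    rw [map_pow, this]
  · rw [map_pow]
    have h4 : (((nU F ε : (𝓞 F)ˣ) : 𝓞 F) : F) =
        ∏ g : F ≃ₐ[ℚ] F, g ((ε : 𝓞 F) : F) := by
      rw [nU_apply, Units.coe_prod]
      exact map_prod (algebraMap (𝓞 F) F) _ _
    refine sq_eq_one_of_rat _ (Algebra.norm ℚ ((ε : 𝓞 F) : F)) ?_
    rw [h4, Algebra.norm_eq_prod_automorphisms]

/-- **the closure index for prime exponent** -/
theorem clo_prime [IsTotallyReal F] [IsGalois ℚ F] (hab : ∀ g h : F ≃ₐ[ℚ] F, g * h = h * g)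
    (l : ℕ) (hl : l.Prime) (hexp : ∀ g : F ≃ₐ[ℚ] F, g ^ l = 1)
    (p : ℕ) (hp : p.Prime) (hp2 : p ≠ 2) (hord : orderOf (p : ZMod l) = l - 1)
    (x : 𝓞 F) (hx1 : 1 < (Ideal.span {x}).absNorm)
    (hxp : Nat.Coprime (Ideal.span {x}).absNorm p) : Fin379 F p x := by
  classical
  have hpf : Fact p.Prime := ⟨hp⟩
  have hl2 := hl.two_le
  have hlf : Fact l.Prime := ⟨hl⟩
  have hexl : Monoid.exponent (F ≃ₐ[ℚ] F) ∣ l := Monoid.exponent_dvd_of_forall_pow_eq_one hexp
  refine clo_gen hab p hp hp2 ?_ ?_ ?_ x hx1 hxp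
  · intro h
    obtain ⟨g, hg⟩ := exists_prime_orderOf_dvd_card' p h
    have h1 : p ∣ l := by
      rw [← hg]
      exact orderOf_dvd_of_pow_eq_one (hexp g)
    have h2 : p = l := (Nat.prime_dvd_prime_iff_eq hp hl).1 h1
    rw [h2, ZMod.natCast_self] at hord
    have h3 : orderOf (0 : ZMod l) = 0 := by
      rw [orderOf_eq_zero_iff']
      intro n hn
      rw [zero_pow hn.ne']
      exact zero_ne_one
    omega
  · intro d hd i hi
    rcases (Nat.dvd_prime hl).1 (hd.trans hexl) with rfl | rfl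
    · exact ⟨0, Nat.modEq_one⟩
    · exact gen_of_orderOf hl hord i hi
  · rintro K - ⟨s, hs⟩ hK
    obtain ⟨ε, h1, h2, h3⟩ := exists_unit_fix K hK
    refine ⟨ε, h1, h2, fun K' hK' S hS => ?_⟩
    have h4 := eq_top_of_lt hl hexp hs hK'
    rw [← h3, nU_apply]
    refine Finset.prod_congr ?_ fun _ _ => rfl
    ext g
    simp [hS, h4]

/-- **PropE for totally real abelian fields of prime exponent** and primes which generate
`(ℤ/l)ˣ`. -/
theorem clos_prime (F : Type*) [Field F] [NumberField F] [IsTotallyReal F] [IsGalois ℚ F]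
    (hab : ∀ g h : F ≃ₐ[ℚ] F, g * h = h * g)
    (l : ℕ) (hl : l.Prime) (hexp : ∀ g : F ≃ₐ[ℚ] F, g ^ l = 1)
    (p : ℕ) (hp : p.Prime) (hp2 : p ≠ 2) (hord : orderOf (p : ZMod l) = l - 1)
    (v : HeightOneSpectrum (𝓞 F)) (hpv : (p : 𝓞 F) ∉ v.asIdeal) :
    Clos F p v := by
  obtain ⟨x0, h0, h1, h2, h3⟩ := exists_x0 hp hpv
  exact clos_of hp hpv h0 h1 (clo_prime hab l hl hexp p hp hp2 hord x0 h2 h3)

end

end Vale.Agent.P024.H157
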