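import Vale.Agent.P024.H157.Nu

/-!
The maximal domain of definition of a homomorphism between Galois groups.
-/

namespace Vale.Agent.P024.H157

open scoped NumberField Topology
open IsDedekindDomain Filter NumberField

section abs

variable {G S : Type*} [Group G] [TopologicalSpace G] [IsTopologicalGroup G] [Group S]
  [TopologicalSpace S] [IsTopologicalGroup S]

/-- `a ∘ conj g` and `conj b ∘ a` agree on an open subgroup -/
def GoodB (H : Subgroup G) (a : H →* S) (g : G) (b : S) : Prop :=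
  ∃ V : Subgroup G, IsOpen (V : Set G) ∧ ∃ hV : V ≤ H, ∀ (x : G) (hx : x ∈ V),
    ∃ h : g * x * g⁻¹ ∈ H, a ⟨g * x * g⁻¹, h⟩ = b * a ⟨x, hV hx⟩ * b⁻¹

theorem isOpen_conj {V : Subgroup G} (hV : IsOpen (V : Set G)) (g : G) :
    IsOpen ((V.comap (MulAut.conj g).toMonoidHom : Subgroup G) : Set G) := by
  refine hV.preimage ?_
  show Continuous fun x => g * x * g⁻¹
  fun_prop

omit [TopologicalSpace S] [IsTopologicalGroup S] in
theorem GoodB.mul {H : Subgroup G} {a : H →* S} {g g' : G} {b b' : S} (h : GoodB H a g b)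
    (h' : GoodB H a g' b') : GoodB H a (g * g') (b * b') := by
  obtain ⟨V, hV, hVH, h1⟩ := h
  obtain ⟨V', hV', hVH', h1'⟩ := h'
  refine ⟨V' ⊓ V.comap (MulAut.conj g').toMonoidHom, hV'.inter (isOpen_conj hV g'),
    inf_le_left.trans hVH', ?_⟩
  rintro x ⟨hx1, hx2⟩
  have hx3 : g' * x * g'⁻¹ ∈ V := hx2
  obtain ⟨h2, h3⟩ := h1' x hx1
  obtain ⟨h4, h5⟩ := h1 _ hx3
  have e : g * g' * x * (g * g')⁻¹ = g * (g' * x * g'⁻¹) * g⁻¹ := by group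
  refine ⟨by rw [e]; exact h4, ?_⟩
  have e2 : (⟨g * g' * x * (g * g')⁻¹, by rw [e]; exact h4⟩ : H) =
    ⟨g * (g' * x * g'⁻¹) * g⁻¹, h4⟩ := Subtype.ext e
  rw [e2, h5]
  have e3 : (⟨g' * x * g'⁻¹, hVH hx3⟩ : H) = ⟨g' * x * g'⁻¹, h2⟩ := rfl
  rw [e3, h3]
  group

omit [TopologicalSpace S] [IsTopologicalGroup S] in
theorem GoodB.inv {H : Subgroup G} {a : H →* S} {g : G} {b : S} (h : GoodB H a g b) :
    GoodB H a g⁻¹ b⁻¹ := by
  obtain ⟨V, hV, hVH, h1⟩ := h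
  refine ⟨V.comap (MulAut.conj g⁻¹).toMonoidHom, isOpen_conj hV _, ?_, ?_⟩
  · intro x hx
    have hx' : g⁻¹ * x * g⁻¹⁻¹ ∈ V := hx
    obtain ⟨h2, -⟩ := h1 _ hx'
    have e : g * (g⁻¹ * x * g⁻¹⁻¹) * g⁻¹ = x := by group
    rwa [e] at h2
  · intro x hx
    have hx' : g⁻¹ * x * g⁻¹⁻¹ ∈ V := hx
    obtain ⟨h2, h3⟩ := h1 _ hx'
    have e : g * (g⁻¹ * x * g⁻¹⁻¹) * g⁻¹ = x := by group
    refine ⟨hVH hx', ?_⟩
    have e2 : (⟨g * (g⁻¹ * x * g⁻¹⁻¹) * g⁻¹, h2⟩ : H) = ⟨x, by rw [← e]; exact h2⟩ :=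
      Subtype.ext e
    rw [e2] at h3
    rw [h3]
    group

omit [IsTopologicalGroup G] [TopologicalSpace S] [IsTopologicalGroup S] in
theorem goodB_self {H : Subgroup G} (hH : IsOpen (H : Set G)) (a : H →* S) (g : H) :
    GoodB H a g (a g) := by
  refine ⟨H, hH, le_rfl, fun x hx => ⟨H.mul_mem (H.mul_mem g.2 hx) (H.inv_mem g.2), ?_⟩⟩
  rw [← map_mul, ← map_inv, ← map_mul]
  rfl

omit [IsTopologicalGroup G] [IsTopologicalGroup S] in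
theorem GoodB.unique
    (hc : ∀ V : Subgroup S, IsOpen (V : Set S) → ∀ b : S, (∀ v ∈ V, b * v = v * b) → b = 1)
    {H : Subgroup G} {a : H →* S}
    (himg : ∀ V : Subgroup G, IsOpen (V : Set G) → V ≤ H →
      IsOpen (((V.subgroupOf H).map a : Subgroup S) : Set S))
    {g : G} {b b' : S} (h : GoodB H a g b) (h' : GoodB H a g b') : b = b' := by
  obtain ⟨V, hV, hVH, h1⟩ := h
  obtain ⟨V', hV', hVH', h1'⟩ := h'
  have h2 := hc _ (himg (V ⊓ V') (hV.inter hV') (inf_le_left.trans hVH)) (b⁻¹ * b') (by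
    rintro v ⟨⟨x, hx⟩, hxV, rfl⟩
    obtain ⟨hx1, hx2⟩ := hxV
    obtain ⟨h3, h4⟩ := h1 x hx1
    obtain ⟨h5, h6⟩ := h1' x hx2
    have h7 : b * a ⟨x, hx⟩ * b⁻¹ = b' * a ⟨x, hx⟩ * b'⁻¹ := h4.symm.trans h6
    have h8 : b * a ⟨x, hx⟩ = b' * a ⟨x, hx⟩ * b'⁻¹ * b := by rw [← h7]; group
    calc b⁻¹ * b' * a ⟨x, hx⟩ = b⁻¹ * (b' * a ⟨x, hx⟩ * b'⁻¹ * b) * b⁻¹ * b' := by group
      _ = b⁻¹ * (b * a ⟨x, hx⟩) * b⁻¹ * b' := by rw [h8]
      _ = a ⟨x, hx⟩ * (b⁻¹ * b') := by group)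
  rw [inv_mul_eq_one] at h2
  exact h2

/-- **the maximal domain** -/
theorem ext_abs
    (hc : ∀ V : Subgroup S, IsOpen (V : Set S) → ∀ b : S, (∀ v ∈ V, b * v = v * b) → b = 1)
    (H : Subgroup G) (hH : IsOpen (H : Set G)) (a : H →* S) (ha : Continuous a)
    (himg : ∀ V : Subgroup G, IsOpen (V : Set G) → V ≤ H →
      IsOpen (((V.subgroupOf H).map a : Subgroup S) : Set S)) :
    ∃ (U : Subgroup G) (a0 : U →* S), H ≤ U ∧ Continuous a0 ∧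
      (∀ (x : G) (hx : x ∈ H) (hx' : x ∈ U), a0 ⟨x, hx'⟩ = a ⟨x, hx⟩) ∧
      (∀ g : U, GoodB H a g (a0 g)) ∧ ∀ g, g ∈ U ↔ ∃ b, GoodB H a g b := by
  classical
  let U : Subgroup G :=
    { carrier := {g | ∃ b, GoodB H a g b}
      mul_mem' := fun {g g'} ⟨b, hb⟩ ⟨b', hb'⟩ => ⟨b * b', hb.mul hb'⟩
      one_mem' := ⟨a 1, goodB_self hH a 1⟩
      inv_mem' := fun {g} ⟨b, hb⟩ => ⟨b⁻¹, hb.inv⟩ }
  have hU : ∀ g, g ∈ U ↔ ∃ b, GoodB H a g b := fun g => Iff.rfl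
  choose f hf using fun g : U => g.2
  have hf' : ∀ g : U, GoodB H a g (f g) := hf
  let a0 : U →* S := MonoidHom.mk' f (by
    intro g g'
    exact GoodB.unique hc himg (hf' (g * g')) ((hf' g).mul (hf' g')))
  have hHU : H ≤ U := fun x hx => ⟨a ⟨x, hx⟩, goodB_self hH a ⟨x, hx⟩⟩
  have hext : ∀ (x : G) (hx : x ∈ H) (hx' : x ∈ U), a0 ⟨x, hx'⟩ = a ⟨x, hx⟩ := by
    intro x hx hx'
    exact GoodB.unique hc himg (hf' ⟨x, hx'⟩) (goodB_self hH a ⟨x, hx⟩)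
  refine ⟨U, a0, hHU, ?_, hext, hf', hU⟩
  refine continuous_of_continuousAt_one a0 ?_
  intro A hA
  rw [map_one] at hA
  have h1 : a ⁻¹' A ∈ 𝓝 (1 : H) := by
    have := ha.continuousAt (x := (1 : H))
    rw [ContinuousAt, map_one] at this
    exact this hA
  rw [nhds_induced, Filter.mem_comap] at h1
  obtain ⟨W, hW, hWA⟩ := h1
  have h2 : W ∩ (H : Set G) ∈ 𝓝 (1 : G) := Filter.inter_mem hW (hH.mem_nhds H.one_mem)
  rw [Filter.mem_map, nhds_induced, Filter.mem_comap]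
  refine ⟨W ∩ (H : Set G), h2, ?_⟩
  rintro y ⟨hy1, hy2⟩
  show a0 ⟨y, _⟩ ∈ A
  rw [hext y hy2]
  exact hWA (show (y : G) ∈ W from hy1)

end abs

end Vale.Agent.P024.H157
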