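import Vale.Agent.P024.H157.Ext

/-!
The maximal domain of definition, for fields.
-/

namespace Vale.Agent.P024.H157

open scoped NumberField Topology
open IsDedekindDomain Filter NumberField

/-- a finite extension of the rationals inside a field is a number field, for every algebra
structure -/
theorem numberField_of {L : Type*} [Field L] [Algebra ℚ L] (F : IntermediateField ℚ L)
    (hF : FiniteDimensional ℚ F) : NumberField F := by
  have hc : CharZero L := algebraRat.charZero L
  have hF' : @Module.Finite ℚ F _ _ (DivisionRing.toRatAlgebra.toModule) := by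
    have e : (DivisionRing.toRatAlgebra : Algebra ℚ F) = F.algebra' := Subsingleton.elim _ _
    rw [e]
    exact hF
  exact { to_finiteDimensional := hF' }

/-- the centralizer of an open subgroup is trivial -/
theorem centralizer {L : Type*} [Field L] [Algebra ℚ L] [IsGalois ℚ L] (hL : SolvablyClosed L)
    (V : Subgroup (L ≃ₐ[ℚ] L)) (hV : IsOpen (V : Set (L ≃ₐ[ℚ] L))) (b : L ≃ₐ[ℚ] L)
    (h : ∀ v ∈ V, b * v = v * b) : b = 1 := by
  obtain ⟨F, hF, rfl⟩ := exists_fix V hV
  have := numberField_of F hF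
  let α : (L ≃ₐ[F] L) →* (L ≃ₐ[ℚ] L) := F.fixingSubgroup.subtype.comp (toFix F)
  obtain ⟨j, -, hj⟩ := existsUnique_of_exists hL hL α ⟨RingHom.id L, fun g x => rfl⟩
  have h1 : (RingHom.id L) = j := hj _ fun g x => rfl
  have h2 : ((b : L ≃+* L) : L →+* L) = j := hj _ (by
    intro g x
    have h3 := h _ (toFix F g).2
    exact (DFunLike.congr_fun h3 x).symm)
  ext x
  have h3 := RingHom.congr_fun (h2.trans h1.symm) x
  exact h3

/-- the inverse of `toFix` is continuous -/
theorem continuous_fixEquiv {K L : Type*} [Field K] [Field L] [Algebra K L] [IsGalois K L]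
    (F : IntermediateField K L) : Continuous F.fixingSubgroupEquiv := by
  have : Algebra.IsAlgebraic F L := Algebra.IsAlgebraic.tower_top (K := K) F
  have : CompactSpace (L ≃ₐ[F] L) := inferInstance
  have : T2Space (L ≃ₐ[K] L) := inferInstance
  have : T2Space F.fixingSubgroup := inferInstance
  have h := (Continuous.homeoOfEquivCompactToT2 (f := F.fixingSubgroupEquiv.symm.toEquiv)
    (continuous_toFix F)).symm.continuous
  exact h

/-- images of open subgroups are open -/
theorem img_open {G S : Type*} [Group G] [TopologicalSpace G] [IsTopologicalGroup G]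
    [CompactSpace G] [Group S] [TopologicalSpace S] [IsTopologicalGroup S] [T2Space S]
    [CompactSpace S] (H : Subgroup G) (hH : IsOpen (H : Set G)) (a : H →* S) (ha : Continuous a)
    (hopen : IsOpen (Set.range a)) (V : Subgroup G) (hV : IsOpen (V : Set G)) (_ : V ≤ H) :
    IsOpen (((V.subgroupOf H).map a : Subgroup S) : Set S) := by
  have hHc : CompactSpace H := isCompact_iff_compactSpace.1 (Subgroup.isClosed_of_isOpen H hH).isCompact
  have hVo : IsOpen ((V.subgroupOf H : Subgroup H) : Set H) := hV.preimage continuous_subtype_val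
  have h1 : IsClosed (((V.subgroupOf H).map a : Subgroup S) : Set S) := by
    rw [Subgroup.coe_map]
    exact ((Subgroup.isClosed_of_isOpen _ hVo).isCompact.image ha).isClosed
  have h2 : (V.subgroupOf H).FiniteIndex := by
    have := Subgroup.quotient_finite_of_isOpen _ hVo
    exact Subgroup.finiteIndex_of_finite_quotient
  have h3 : a.range.FiniteIndex := by
    have h4 : IsOpen ((a.range : Subgroup S) : Set S) := by rwa [MonoidHom.coe_range]
    have := Subgroup.quotient_finite_of_isOpen _ h4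
    exact Subgroup.finiteIndex_of_finite_quotient
  have h5 : ((V.subgroupOf H).map a).FiniteIndex := by
    refine ⟨?_⟩
    rw [Subgroup.index_map]
    refine mul_ne_zero ?_ h3.index_ne_zero
    exact (Subgroup.finiteIndex_of_le (le_sup_left : V.subgroupOf H ≤ _ ⊔ a.ker)).index_ne_zero
  exact Subgroup.isOpen_of_isClosed_of_finiteIndex _ h1

section field

variable {E₁ L : Type*} [Field E₁] [Algebra ℚ E₁] [IsGalois ℚ E₁] [Field L] [Algebra ℚ L]
  [IsGalois ℚ L]

theorem ext_field (hL : SolvablyClosed L) (F : IntermediateField ℚ E₁) [FiniteDimensional ℚ F]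
    (a : (E₁ ≃ₐ[F] E₁) →* (L ≃ₐ[ℚ] L)) (ha : Continuous a) (hopen : IsOpen (Set.range a)) :
    ∃ (F0 : IntermediateField ℚ E₁) (_ : F0 ≤ F) (a0 : (E₁ ≃ₐ[F0] E₁) →* (L ≃ₐ[ℚ] L)),
      FiniteDimensional ℚ F0 ∧ Continuous a0 ∧ IsOpen (Set.range a0) ∧
      (∀ (g : E₁ ≃ₐ[F] E₁) (g0 : E₁ ≃ₐ[F0] E₁), (∀ x, g x = g0 x) → a0 g0 = a g) ∧
      ∀ g, g ∈ F0.fixingSubgroup ↔
        ∃ b, GoodB F.fixingSubgroup (a.comp F.fixingSubgroupEquiv.toMonoidHom) g b := by
  have hHo : IsOpen (F.fixingSubgroup : Set (E₁ ≃ₐ[ℚ] E₁)) :=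
    IntermediateField.fixingSubgroup_isOpen F
  set a' : F.fixingSubgroup →* (L ≃ₐ[ℚ] L) := a.comp F.fixingSubgroupEquiv.toMonoidHom with ha'
  have hca' : Continuous a' := ha.comp (continuous_fixEquiv F)
  have hra' : Set.range a' = Set.range a := by
    ext y
    constructor
    · rintro ⟨x, rfl⟩
      exact ⟨_, rfl⟩
    · rintro ⟨x, rfl⟩
      exact ⟨F.fixingSubgroupEquiv.symm x, by
        show a (F.fixingSubgroupEquiv (F.fixingSubgroupEquiv.symm x)) = a x
        rw [MulEquiv.apply_symm_apply]⟩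
  obtain ⟨U, a0, hHU, hc, hext, hgood, hU⟩ := ext_abs (centralizer hL) F.fixingSubgroup hHo a' hca'
    (fun V hV hVH => img_open _ hHo a' hca' (by rw [hra']; exact hopen) V hV hVH)
  have hUo : IsOpen (U : Set (E₁ ≃ₐ[ℚ] E₁)) := Subgroup.isOpen_mono hHU hHo
  obtain ⟨F0, hF0, rfl⟩ := exists_fix U hUo
  have hmatch : ∀ (g : E₁ ≃ₐ[F] E₁) (g0 : E₁ ≃ₐ[F0] E₁), (∀ x, g x = g0 x) →
      (a0.comp (toFix F0)) g0 = a g := by
    intro g g0 h
    have h1 : ((toFix F g : F.fixingSubgroup) : E₁ ≃ₐ[ℚ] E₁) =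
        ((toFix F0 g0 : F0.fixingSubgroup) : E₁ ≃ₐ[ℚ] E₁) := by
      ext x
      exact h x
    have h2 := hext _ (toFix F g).2 (by rw [h1]; exact (toFix F0 g0).2)
    have h3 : (⟨((toFix F g : F.fixingSubgroup) : E₁ ≃ₐ[ℚ] E₁), by
        rw [h1]; exact (toFix F0 g0).2⟩ : F0.fixingSubgroup) = toFix F0 g0 := Subtype.ext h1
    rw [h3] at h2
    show a0 (toFix F0 g0) = a g
    rw [h2]
    show a (F.fixingSubgroupEquiv (F.fixingSubgroupEquiv.symm g)) = a g
    rw [MulEquiv.apply_symm_apply]
  refine ⟨F0, ?_, a0.comp (toFix F0), hF0, hc.comp (continuous_toFix F0), ?_, hmatch, hU⟩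
  · have := IntermediateField.fixedField_antitone hHU
    rwa [InfiniteGalois.fixedField_fixingSubgroup, InfiniteGalois.fixedField_fixingSubgroup] at this
  · have h1 : a.range ≤ (a0.comp (toFix F0)).range := by
      rintro _ ⟨g, rfl⟩
      obtain ⟨g0, hg0⟩ := toFix_surj F0 ⟨(toFix F g : F.fixingSubgroup), hHU (toFix F g).2⟩
      refine ⟨g0, hmatch g g0 fun x => ?_⟩
      have h2 := congrArg (fun y : F0.fixingSubgroup => (y : E₁ ≃ₐ[ℚ] E₁) x) hg0
      exact h2.symm
    have h2 : IsOpen ((a.range : Subgroup (L ≃ₐ[ℚ] L)) : Set (L ≃ₐ[ℚ] L)) := by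
      rwa [MonoidHom.coe_range]
    have h3 := Subgroup.isOpen_mono h1 h2
    rwa [MonoidHom.coe_range] at h3

end field

end Vale.Agent.P024.H157
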