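import Mathlib

/-!
The Herbrand quotient of a commutative group with two endomorphisms.
-/

namespace Vale.Agent.P024.H157

open Subgroup

section Abs

variable {A : Type*} [CommGroup A]

/-- The index of `I` in `U` from images and kernels of a homomorphism. -/
theorem relIndex_eq_map_mul_ker {B : Type*} [CommGroup B] (f : A →* B) {I U : Subgroup A}
    (h : I ≤ U) :
    I.relIndex U = (I.map f).relIndex (U.map f) * (I ⊓ f.ker).relIndex (U ⊓ f.ker) := by
  have h1 : (I.map f).relIndex (U.map f) = (I ⊔ (U ⊓ f.ker)).relIndex U := by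
    rw [relIndex_map_map]
    have h2 : U ⊔ f.ker = (I ⊔ f.ker) ⊔ U := by
      rw [sup_right_comm, sup_eq_right.2 h]
    rw [h2, relIndex_sup_left, ← inf_relIndex_right]
    congr 1
    rw [inf_comm U f.ker, ← sup_inf_assoc_of_le f.ker h]
  have h3 : (I ⊓ f.ker).relIndex (U ⊓ f.ker) = I.relIndex (I ⊔ (U ⊓ f.ker)) := by
    rw [relIndex_sup_left, ← inf_relIndex_right I (U ⊓ f.ker), ← inf_assoc, inf_eq_left.2 h]
  rw [h1, h3, mul_comm]
  exact (relIndex_mul_relIndex _ _ _ le_sup_left (sup_le h inf_le_left)).symm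

/-- The two orders `#(ker g / im f)` and `#(ker f / im g)` of a subgroup `U`. -/
noncomputable def hh (f g : A →* A) (U : Subgroup A) : ℕ := (U.map f).relIndex (U ⊓ g.ker)

theorem herbrand_aux (f g : A →* A) {I U : Subgroup A} (h : I ≤ U)
    (hgf : ∀ x ∈ U, g (f x) = 1) (hUf : U.map f ≤ U) (hIf : I.map f ≤ I) :
    hh f g U * (I.map f).relIndex (U.map f) =
      hh f g I * (I ⊓ g.ker).relIndex (U ⊓ g.ker) := by
  have h1 : U.map f ≤ U ⊓ g.ker := by
    refine le_inf hUf ?_
    rintro _ ⟨x, hx, rfl⟩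
    exact hgf x hx
  have h2 : I.map f ≤ I ⊓ g.ker := by
    refine le_inf hIf ?_
    rintro _ ⟨x, hx, rfl⟩
    exact hgf x (h hx)
  have h3 : I.map f ≤ U.map f := Subgroup.map_mono h
  have h4 : I ⊓ g.ker ≤ U ⊓ g.ker := inf_le_inf_right _ h
  rw [hh, hh, mul_comm, relIndex_mul_relIndex _ _ _ h3 h1, relIndex_mul_relIndex _ _ _ h2 h4]

/-- Invariance of the Herbrand quotient under passing to a subgroup of finite index. -/
theorem herbrand_index (f g : A →* A) {I U : Subgroup A} (h : I ≤ U)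
    (hfg : ∀ x ∈ U, f (g x) = 1) (hgf : ∀ x ∈ U, g (f x) = 1)
    (hUf : U.map f ≤ U) (hIf : I.map f ≤ I) (hUg : U.map g ≤ U) (hIg : I.map g ≤ I)
    (hfin : I.relIndex U ≠ 0) :
    hh f g U * hh g f I = hh f g I * hh g f U ∧ (hh f g I ≠ 0 → hh f g U ≠ 0) ∧
      (hh g f I ≠ 0 → hh g f U ≠ 0) := by
  have h1 := herbrand_aux f g h hgf hUf hIf
  have h2 := herbrand_aux g f h hfg hUg hIg
  have h3 := relIndex_eq_map_mul_ker f h
  have h4 := relIndex_eq_map_mul_ker g h
  set X := (I.map f).relIndex (U.map f)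
  set Y := (I ⊓ g.ker).relIndex (U ⊓ g.ker)
  set X' := (I.map g).relIndex (U.map g)
  set Y' := (I ⊓ f.ker).relIndex (U ⊓ f.ker)
  have hX : X ≠ 0 := by intro h0; rw [h0, zero_mul] at h3; exact hfin h3
  have hY' : Y' ≠ 0 := by intro h0; rw [h0, mul_zero] at h3; exact hfin h3
  have hX' : X' ≠ 0 := by intro h0; rw [h0, zero_mul] at h4; exact hfin h4
  have hY : Y ≠ 0 := by intro h0; rw [h0, mul_zero] at h4; exact hfin h4
  refine ⟨?_, ?_, ?_⟩
  · have h5 : X * Y' = X' * Y := h3.symm.trans h4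
    have h6 : (hh f g U * hh g f I) * (X * Y') = (hh f g I * hh g f U) * (X * Y') := by
      calc (hh f g U * hh g f I) * (X * Y') = (hh f g U * X) * (hh g f I * Y') := by ring
        _ = (hh f g I * Y) * (hh g f U * X') := by rw [h1, h2]
        _ = (hh f g I * hh g f U) * (X' * Y) := by ring
        _ = _ := by rw [h5]
    exact Nat.eq_of_mul_eq_mul_right (Nat.pos_of_ne_zero (mul_ne_zero hX hY')) h6
  · intro hI h0
    rw [h0, zero_mul] at h1
    exact mul_ne_zero hI hY h1.symm
  · intro hI h0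
    rw [h0, zero_mul] at h2
    exact mul_ne_zero hI hY' h2.symm

/-- The Herbrand quotient of a quotient of an acyclic group by an infinite cyclic group on which
`f` is zero and `g` is multiplication by `N`. -/
theorem herbrand_quot {M : Type*} [CommGroup M] (φ : M →* A) (f' g' : M →* M) (f g : A →* A)
    (hf : ∀ m, φ (f' m) = f (φ m)) (hg : ∀ m, φ (g' m) = g (φ m))
    (hkf : f'.ker = g'.range) (hkg : g'.ker = f'.range) {κ : M} (hκ : φ.ker = zpowers κ)
    {N : ℕ} (hN : 0 < N) (hfκ : f' κ = 1) (hgκ : g' κ = κ ^ N)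
    (hinf : ∀ k : ℤ, κ ^ k = 1 → k = 0) :
    hh g f φ.range = 1 ∧ hh f g φ.range = N := by
  constructor
  · rw [hh, relIndex_eq_one]
    rintro x ⟨⟨m, rfl⟩, hx⟩
    have h1 : f' m ∈ φ.ker := by
      rw [MonoidHom.mem_ker, hf]
      exact hx
    rw [hκ] at h1
    obtain ⟨t, ht⟩ := h1
    have h2 : g' (f' m) = 1 := by
      have : f' m ∈ g'.ker := by rw [hkg]; exact ⟨m, rfl⟩
      exact this
    have h3 : t = 0 := by
      have h4 : κ ^ ((N : ℤ) * t) = 1 := by
        rw [zpow_mul, zpow_natCast, ← hgκ, ← map_zpow, ← h2]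
        exact congrArg g' ht
      rcases mul_eq_zero.1 (hinf _ h4) with h5 | h5
      · exact absurd h5 (by exact_mod_cast hN.ne')
      · exact h5
    have h6 : m ∈ f'.ker := by
      rw [MonoidHom.mem_ker, ← ht, h3]
      simp
    rw [hkf] at h6
    obtain ⟨n, rfl⟩ := h6
    exact ⟨φ n, ⟨n, rfl⟩, (hg n).symm⟩
  · set W : Subgroup M := (zpowers κ).comap g' with hW
    have h1 : φ.range ⊓ g.ker = W.map φ := by
      ext x
      constructor
      · rintro ⟨⟨m, rfl⟩, hx⟩
        refine ⟨m, ?_, rfl⟩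
        show g' m ∈ zpowers κ
        rw [← hκ, MonoidHom.mem_ker, hg]
        exact hx
      · rintro ⟨m, hm, rfl⟩
        refine ⟨⟨m, rfl⟩, ?_⟩
        have h2 : g' m ∈ zpowers κ := hm
        rw [← hκ, MonoidHom.mem_ker, hg] at h2
        exact h2
    have h2 : φ.range.map f = f'.range.map φ := by
      ext x
      constructor
      · rintro ⟨_, ⟨m, rfl⟩, rfl⟩
        exact ⟨f' m, ⟨m, rfl⟩, hf m⟩
      · rintro ⟨_, ⟨m, rfl⟩, rfl⟩
        exact ⟨φ m, ⟨m, rfl⟩, (hf m).symm⟩
    have h3 : zpowers κ ≤ W := by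
      rw [zpowers_le]
      show g' κ ∈ zpowers κ
      rw [hgκ]
      exact pow_mem (mem_zpowers κ) N
    have h4 : f'.range ≤ W := by
      rintro _ ⟨m, rfl⟩
      show g' (f' m) ∈ zpowers κ
      have h5 : f' m ∈ g'.ker := by rw [hkg]; exact ⟨m, rfl⟩
      rw [MonoidHom.mem_ker.1 h5]
      exact one_mem _
    rw [hh, h1, h2, relIndex_map_map, hκ, sup_eq_left.2 h3]
    have h5 : W.map g' = zpowers κ := by
      apply le_antisymm
      · rintro _ ⟨m, hm, rfl⟩
        exact hm
      · rw [zpowers_le]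
        have h6 : κ ∈ f'.ker := hfκ
        rw [hkf] at h6
        obtain ⟨m, hm⟩ := h6
        refine ⟨m, ?_, hm⟩
        show g' m ∈ zpowers κ
        rw [hm]
        exact mem_zpowers κ
    have h6 : (f'.range ⊔ zpowers κ).map g' = zpowers (κ ^ N) := by
      rw [Subgroup.map_sup, MonoidHom.map_zpowers, hgκ]
      have h7 : f'.range.map g' = ⊥ := by
        rw [← hkg]
        exact (Subgroup.map_eq_bot_iff _).2 le_rfl
      rw [h7, bot_sup_eq]
    have h8 := relIndex_map_map g' (f'.range ⊔ zpowers κ) W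
    rw [h5, h6, hkg, sup_eq_left.2 h4, sup_eq_left.2 le_sup_left] at h8
    rw [← h8]
    have h9 : Function.Injective (zpowersHom M κ) := by
      rw [injective_iff_map_eq_one]
      intro k hk
      have := hinf (Multiplicative.toAdd k) (by simpa [zpowersHom_apply] using hk)
      exact this
    have h10 : zpowers κ = (⊤ : Subgroup (Multiplicative ℤ)).map (zpowersHom M κ) := by
      rw [← MonoidHom.range_eq_map]
      ext x
      constructor
      · rintro ⟨k, rfl⟩
        exact ⟨Multiplicative.ofAdd k, by simp [zpowersHom_apply]⟩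
      · rintro ⟨k, rfl⟩
        exact ⟨Multiplicative.toAdd k, by simp [zpowersHom_apply]⟩
    have h11 : zpowers (κ ^ N) = (zpowers (Multiplicative.ofAdd (N : ℤ))).map
        (zpowersHom M κ) := by
      rw [MonoidHom.map_zpowers]
      congr 1
      simp [zpowersHom_apply]
    rw [h10, h11, relIndex_map_map_of_injective _ _ h9, relIndex_top_right]
    have h12 := Int.index_zmultiples (N : ℤ)
    rw [Int.natAbs_natCast] at h12
    have h13 : (zpowers (Multiplicative.ofAdd (N : ℤ))).index =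
        (AddSubgroup.zmultiples (N : ℤ)).index := by
      rfl
    rw [h13, h12]

end Abs

end Vale.Agent.P024.H157
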