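import Mathlib

/-!
The induced module of functions on a finite cyclic group is cohomologically trivial.
-/

namespace Vale.Agent.P024.H157

section Ind

variable {ι : Type*} [Fintype ι] {G : Type*} [Group G] [Fintype G]

/-- `σ - 1` on functions. -/
def fD (ι : Type*) {G : Type*} [Group G] (σ : G) : (ι → G → ℤ) →+ (ι → G → ℤ) where
  toFun m := fun i τ => m i (σ⁻¹ * τ) - m i τ
  map_zero' := by ext; simp
  map_add' a b := by ext; simp; ring

/-- The norm on functions. -/
def fN (ι : Type*) (G : Type*) [Group G] [Fintype G] : (ι → G → ℤ) →+ (ι → G → ℤ) where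
  toFun m := fun i _ => ∑ ρ, m i ρ
  map_zero' := by ext; simp
  map_add' a b := by ext; simp [Finset.sum_add_distrib]

omit [Fintype ι] [Fintype G] in
theorem fD_apply (σ : G) (m : ι → G → ℤ) (i : ι) (τ : G) :
    fD ι σ m i τ = m i (σ⁻¹ * τ) - m i τ := rfl

omit [Fintype ι] in
theorem fN_apply (m : ι → G → ℤ) (i : ι) (τ : G) : fN ι G m i τ = ∑ ρ, m i ρ := rfl

omit [Fintype ι] in
theorem fN_fD (σ : G) (m : ι → G → ℤ) : fN ι G (fD ι σ m) = 0 := by
  ext i τ
  rw [fN_apply]
  simp only [fD_apply, Finset.sum_sub_distrib, Pi.zero_apply]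
  rw [sub_eq_zero]
  exact Fintype.sum_equiv (Equiv.mulLeft σ⁻¹) _ _ (fun _ => rfl)

omit [Fintype ι] in
theorem fD_fN (σ : G) (m : ι → G → ℤ) : fD ι σ (fN ι G m) = 0 := by
  ext i τ
  rw [fD_apply, fN_apply, fN_apply, sub_self]
  rfl

omit [Fintype ι] in
/-- Invariant functions are norms. -/
theorem ker_fD {σ : G} (hσ : ∀ τ : G, τ ∈ Subgroup.zpowers σ) :
    (fD ι σ).ker = (fN ι G).range := by
  classical
  apply le_antisymm
  · intro m hm
    have h1 : ∀ i τ, m i (σ⁻¹ * τ) = m i τ := by
      intro i τ
      have := congrFun (congrFun (AddMonoidHom.mem_ker.1 hm) i) τ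
      rw [fD_apply] at this
      simpa [sub_eq_zero] using this
    have h2 : ∀ i τ, m i (σ * τ) = m i τ := by
      intro i τ
      rw [← h1 i (σ * τ), inv_mul_cancel_left]
    have h3 : ∀ i (k : ℤ) τ, m i (σ ^ k * τ) = m i τ := by
      intro i k
      induction k using Int.induction_on with
      | zero => intro τ; simp
      | succ n ih =>
        intro τ
        rw [zpow_add_one, mul_assoc, ih, h2]
      | pred n ih =>
        intro τ
        rw [zpow_sub_one, mul_assoc, ih, h1]
    have h4 : ∀ i τ, m i τ = m i 1 := by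
      intro i τ
      obtain ⟨k, hk⟩ := hσ τ
      have h5 := h3 i k 1
      rw [mul_one] at h5
      rw [← h5]
      exact congrArg (m i) hk.symm
    refine ⟨fun i τ => if τ = 1 then m i 1 else 0, ?_⟩
    ext i τ
    rw [fN_apply, h4 i τ]
    simp
  · rintro _ ⟨m, rfl⟩
    exact fD_fN σ m

/-- Functions with sum zero are in the image of `σ - 1`. -/
theorem ker_fN {σ : G} (hσ : ∀ τ : G, τ ∈ Subgroup.zpowers σ) :
    (fN ι G).ker = (fD ι σ).range := by
  classical
  apply le_antisymm
  · intro m hm
    have h1 : ∀ i, ∑ ρ, m i ρ = 0 := by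
      intro i
      exact congrFun (congrFun (AddMonoidHom.mem_ker.1 hm) i) 1
    have hs : ∀ i (τ : G), fD ι σ (Pi.single i (Pi.single τ 1)) =
        Pi.single i (Pi.single (σ * τ) 1) - Pi.single i (Pi.single τ 1) := by
      intro i τ
      ext j ρ
      rw [fD_apply]
      simp only [Pi.sub_apply]
      congr 1
      by_cases hj : j = i
      · subst hj
        simp only [Pi.single_eq_same]
        by_cases hρ : ρ = σ * τ
        · subst hρ
          simp
        · rw [Pi.single_eq_of_ne hρ, Pi.single_eq_of_ne]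
          intro h
          apply hρ
          rw [← h, mul_inv_cancel_left]
      · rw [Pi.single_eq_of_ne hj, Pi.single_eq_of_ne hj]
        rfl
    have h2 : ∀ i (k : ℕ), (Pi.single i (Pi.single (σ ^ k) 1) - Pi.single i (Pi.single 1 1) :
        ι → G → ℤ) ∈ (fD ι σ).range := by
      intro i k
      induction k with
      | zero => simp
      | succ n ih =>
        have h3 : (Pi.single i (Pi.single (σ ^ (n + 1)) 1) - Pi.single i (Pi.single 1 1) :
            ι → G → ℤ) = fD ι σ (Pi.single i (Pi.single (σ ^ n) 1)) +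
            (Pi.single i (Pi.single (σ ^ n) 1) - Pi.single i (Pi.single 1 1)) := by
          rw [hs, pow_succ']
          abel
        rw [h3]
        exact add_mem ⟨_, rfl⟩ ih
    have h3 : ∀ i (τ : G), (Pi.single i (Pi.single τ 1) - Pi.single i (Pi.single 1 1) :
        ι → G → ℤ) ∈ (fD ι σ).range := by
      intro i τ
      obtain ⟨k, rfl⟩ : ∃ k : ℕ, σ ^ k = τ := by
        have := hσ τ
        rw [← mem_powers_iff_mem_zpowers] at this
        exact this
      exact h2 i k
    have h4 : m = ∑ i, ∑ τ, m i τ • (Pi.single i (Pi.single τ 1) - Pi.single i (Pi.single 1 1) :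
        ι → G → ℤ) := by
      have h5 : ∀ i, (∑ τ, m i τ • (Pi.single i (Pi.single τ 1) - Pi.single i (Pi.single 1 1) :
          ι → G → ℤ)) = Pi.single i (m i) := by
        intro i
        simp only [smul_sub, Finset.sum_sub_distrib]
        rw [← Finset.sum_smul, h1 i, zero_smul, sub_zero]
        ext j ρ
        simp only [Finset.sum_apply, Pi.smul_apply, smul_eq_mul]
        by_cases hj : j = i
        · subst hj
          simp [Pi.single_apply]
        · simp [Pi.single_eq_of_ne hj]
      simp only [h5]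
      exact (Finset.univ_sum_single m).symm
    rw [h4]
    exact sum_mem fun i _ => sum_mem fun τ _ => zsmul_mem (h3 i τ) _
  · rintro _ ⟨m, rfl⟩
    exact fN_fD σ m

end Ind

end Vale.Agent.P024.H157
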