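import Vale.Agent.P024.H157.Her1
import Vale.Agent.P024.H157.Her2

/-!
The Herbrand quotient of a group which contains, with finite index, a permutation module of a free
`G`-set modulo one relation: it is `1 / N` for a cyclic group of order `N`.
-/

namespace Vale.Agent.P024.H157

open Subgroup

section Free

variable {G : Type*} [Group G]

/-- A free `G`-set is a disjoint union of copies of `G`. -/
theorem exists_free_equiv.{uX} {X : Type uX} [Finite X] [MulAction G X]
    (hfree : ∀ (g : G) (x : X), g • x = x → g = 1) :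
    ∃ (ι : Type uX) (_ : Fintype ι) (E : ι × G ≃ X), ∀ i g τ, E (i, g * τ) = g • E (i, τ) := by
  classical
  let F : Quotient (MulAction.orbitRel G X) × G → X := fun p => p.2 • p.1.out
  have hq : ∀ (i : Quotient (MulAction.orbitRel G X)) (g : G),
      Quotient.mk (MulAction.orbitRel G X) (g • i.out) = i := by
    intro i g
    conv_rhs => rw [← Quotient.out_eq i]
    apply Quotient.sound
    exact ⟨g, rfl⟩
  have hF : Function.Bijective F := by
    constructor
    · rintro ⟨i, g⟩ ⟨j, h⟩ hij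
      have h1 : i = j := by
        rw [← hq i g, ← hq j h]
        exact congrArg _ hij
      subst h1
      have h2 : (h⁻¹ * g) • i.out = i.out := by
        rw [mul_smul, inv_smul_eq_iff]
        exact hij
      have h3 := hfree _ _ h2
      rw [inv_mul_eq_one] at h3
      rw [h3]
    · intro x
      have h1 : (MulAction.orbitRel G X) x
          (Quotient.out (Quotient.mk (MulAction.orbitRel G X) x)) :=
        (MulAction.orbitRel G X).symm' (Quotient.mk_out (s := MulAction.orbitRel G X) x)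
      obtain ⟨g, hg⟩ := h1
      exact ⟨(Quotient.mk (MulAction.orbitRel G X) x, g), hg⟩
  refine ⟨Quotient (MulAction.orbitRel G X), Fintype.ofFinite _, Equiv.ofBijective F hF, ?_⟩
  intro i g τ
  show (g * τ) • i.out = g • (τ • i.out)
  rw [mul_smul]

end Free

section Main

theorem prod_zpow_eq {A : Type*} [CommGroup A] {ι : Type*} (s : Finset ι) (a : A) (f : ι → ℤ) :
    ∏ i ∈ s, a ^ f i = a ^ ∑ i ∈ s, f i := by
  classical
  induction s using Finset.induction_on with
  | empty => simp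
  | insert i s hi ih => rw [Finset.prod_insert hi, Finset.sum_insert hi, zpow_add, ih]

variable {G A X : Type*} [Group G] [Fintype G] [CommGroup A] [Fintype X] [MulAction G X]

/-- Main statement on Herbrand quotients. -/
theorem herb (ρ : G →* MulAut A) {σ : G} (hσ : ∀ τ : G, τ ∈ zpowers σ)
    (hfree : ∀ (g : G) (x : X), g • x = x → g = 1)
    (D Nm : A →* A) (hD : ∀ x, D x = ρ σ x / x) (hN : ∀ x, Nm x = ∏ g, ρ g x)
    (U : Subgroup A) (hU : ∀ g, ∀ x ∈ U, ρ g x ∈ U) (u : X → A) (hu : ∀ x, u x ∈ U)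
    (hug : ∀ g x, u (g • x) = ρ g (u x)) (hfin : (closure (Set.range u)).relIndex U ≠ 0)
    (e : X → ℤ) (he0 : e ≠ 0) (heg : ∀ (g : G) x, e (g • x) = e x)
    (hrel : ∀ a : X → ℤ, ∏ x, u x ^ a x = 1 ↔ ∃ k : ℤ, a = k • e) :
    (U.map D).relIndex (U ⊓ Nm.ker) = Nat.card G * (U.map Nm).relIndex (U ⊓ D.ker) ∧
      (U.map D).relIndex (U ⊓ Nm.ker) ≠ 0 ∧ (U.map Nm).relIndex (U ⊓ D.ker) ≠ 0 := by
  classical
  obtain ⟨ι, _, E, hE⟩ := exists_free_equiv hfree
  -- the homomorphism from the induced module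
  let Φ₀ : (ι → G → ℤ) →+ Additive A :=
    { toFun := fun m => Additive.ofMul (∏ p : ι × G, u (E p) ^ m p.1 p.2)
      map_zero' := by simp
      map_add' := fun a b => by
        rw [← ofMul_mul, ← Finset.prod_mul_distrib]
        congr 1
        refine Finset.prod_congr rfl fun p _ => ?_
        rw [Pi.add_apply, Pi.add_apply, zpow_add] }
  let Φ : Multiplicative (ι → G → ℤ) →* A := AddMonoidHom.toMultiplicativeLeft Φ₀
  have hΦ : ∀ m : ι → G → ℤ, Φ (Multiplicative.ofAdd m) = ∏ p : ι × G, u (E p) ^ m p.1 p.2 :=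
    fun m => rfl
  let f' : Multiplicative (ι → G → ℤ) →* Multiplicative (ι → G → ℤ) :=
    AddMonoidHom.toMultiplicative (fD ι σ)
  let g' : Multiplicative (ι → G → ℤ) →* Multiplicative (ι → G → ℤ) :=
    AddMonoidHom.toMultiplicative (fN ι G)
  have hf'a : ∀ m : ι → G → ℤ, f' (Multiplicative.ofAdd m) = Multiplicative.ofAdd (fD ι σ m) :=
    fun m => rfl
  have hg'a : ∀ m : ι → G → ℤ, g' (Multiplicative.ofAdd m) = Multiplicative.ofAdd (fN ι G m) :=
    fun m => rfl
  have hact : ∀ (g : G) (m : ι → G → ℤ), ρ g (∏ p : ι × G, u (E p) ^ m p.1 p.2) =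
      ∏ p : ι × G, u (E p) ^ m p.1 (g⁻¹ * p.2) := by
    intro g m
    rw [map_prod]
    refine Fintype.prod_equiv (Equiv.prodCongr (Equiv.refl ι) (Equiv.mulLeft g)) _ _ ?_
    rintro ⟨i, τ⟩
    simp only [Equiv.prodCongr_apply, Prod.map_apply, Equiv.refl_apply, Equiv.coe_mulLeft,
      inv_mul_cancel_left]
    rw [map_zpow, hE, hug]
  have hf : ∀ m, Φ (f' m) = D (Φ m) := by
    intro m
    obtain ⟨m, rfl⟩ := Multiplicative.ofAdd.surjective m
    rw [hf'a, hΦ, hΦ, hD, hact, ← Finset.prod_div_distrib]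
    refine Finset.prod_congr rfl fun p _ => ?_
    rw [fD_apply, zpow_sub, div_eq_mul_inv]
  have hg : ∀ m, Φ (g' m) = Nm (Φ m) := by
    intro m
    obtain ⟨m, rfl⟩ := Multiplicative.ofAdd.surjective m
    rw [hg'a, hΦ, hΦ, hN]
    simp only [hact]
    rw [Finset.prod_comm]
    refine Finset.prod_congr rfl fun p _ => ?_
    rw [fN_apply]
    rw [prod_zpow_eq]
    congr 1
    exact Fintype.sum_equiv ((Equiv.inv G).trans (Equiv.mulRight p.2)).symm _ _ (by
      intro x
      simp)
  have hkf : f'.ker = g'.range := by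
    ext m
    obtain ⟨m, rfl⟩ := Multiplicative.ofAdd.surjective m
    have h1 : m ∈ (fD ι σ).ker ↔ m ∈ (fN ι G).range := by rw [ker_fD hσ]
    constructor
    · intro h
      obtain ⟨n, hn⟩ := h1.1 (show fD ι σ m = 0 from h)
      exact ⟨Multiplicative.ofAdd n, congrArg Multiplicative.ofAdd hn⟩
    · rintro ⟨n, hn⟩
      exact (show fD ι σ m = 0 from h1.2 ⟨Multiplicative.toAdd n, hn⟩)
  have hkg : g'.ker = f'.range := by
    ext m
    obtain ⟨m, rfl⟩ := Multiplicative.ofAdd.surjective m
    have h1 : m ∈ (fN ι G).ker ↔ m ∈ (fD ι σ).range := by rw [ker_fN hσ]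
    constructor
    · intro h
      obtain ⟨n, hn⟩ := h1.1 (show fN ι G m = 0 from h)
      exact ⟨Multiplicative.ofAdd n, congrArg Multiplicative.ofAdd hn⟩
    · rintro ⟨n, hn⟩
      exact (show fN ι G m = 0 from h1.2 ⟨Multiplicative.toAdd n, hn⟩)
  let κ : Multiplicative (ι → G → ℤ) := Multiplicative.ofAdd (fun i τ => e (E (i, τ)))
  have hκ : Φ.ker = zpowers κ := by
    ext m
    obtain ⟨m, rfl⟩ := Multiplicative.ofAdd.surjective m
    rw [MonoidHom.mem_ker, hΦ]
    have h1 : ∏ p : ι × G, u (E p) ^ m p.1 p.2 =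
        ∏ x, u x ^ (m (E.symm x).1 (E.symm x).2) := by
      refine Fintype.prod_equiv E _ _ fun p => ?_
      rw [Equiv.symm_apply_apply]
    rw [h1, hrel (fun x => m (E.symm x).1 (E.symm x).2), mem_zpowers_iff]
    constructor
    · rintro ⟨k, hk⟩
      refine ⟨k, ?_⟩
      show Multiplicative.ofAdd (k • fun i τ => e (E (i, τ))) = Multiplicative.ofAdd m
      congr 1
      ext i τ
      have h2 := congrFun hk (E (i, τ))
      simp only [Equiv.symm_apply_apply] at h2
      exact h2.symm
    · rintro ⟨k, hk⟩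
      refine ⟨k, ?_⟩
      have h2 : (k • fun i τ => e (E (i, τ)) : ι → G → ℤ) = m :=
        Multiplicative.ofAdd.injective hk
      ext x
      rw [← h2]
      simp
  have hcard : 0 < Nat.card G := Nat.card_pos
  have heE : ∀ i τ, e (E (i, τ)) = e (E (i, 1)) := by
    intro i τ
    have := hE i τ 1
    rw [mul_one] at this
    rw [this, heg]
  have hfκ : f' κ = 1 := by
    show Multiplicative.ofAdd (fD ι σ fun i τ => e (E (i, τ))) = Multiplicative.ofAdd 0
    congr 1
    ext i τ
    rw [fD_apply, heE, heE i τ, sub_self]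
    rfl
  have hgκ : g' κ = κ ^ Nat.card G := by
    show Multiplicative.ofAdd (fN ι G fun i τ => e (E (i, τ))) =
      Multiplicative.ofAdd (Nat.card G • fun i τ => e (E (i, τ)))
    congr 1
    ext i τ
    rw [fN_apply]
    simp only [heE, Pi.smul_apply]
    rw [Finset.sum_const, Finset.card_univ, Nat.card_eq_fintype_card]
  have hinf : ∀ k : ℤ, κ ^ k = 1 → k = 0 := by
    intro k hk
    have h1 : (k • fun i τ => e (E (i, τ)) : ι → G → ℤ) = 0 := Multiplicative.ofAdd.injective hk
    by_contra hk0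
    apply he0
    ext x
    have h2 := congrFun (congrFun h1 (E.symm x).1) (E.symm x).2
    simp only [Pi.smul_apply, Prod.mk.eta, Equiv.apply_symm_apply, Pi.zero_apply,
      smul_eq_mul] at h2
    rcases mul_eq_zero.1 h2 with h3 | h3
    · exact absurd h3 hk0
    · exact h3
  have hq := herbrand_quot Φ f' g' D Nm hf hg hkf hkg hκ hcard hfκ hgκ hinf
  have hrange : Φ.range = closure (Set.range u) := by
    apply le_antisymm
    · rintro _ ⟨m, rfl⟩
      obtain ⟨m, rfl⟩ := Multiplicative.ofAdd.surjective m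
      rw [hΦ]
      exact prod_mem fun p _ => zpow_mem (Subgroup.subset_closure (Set.mem_range_self (E p))) _
    · rw [closure_le]
      rintro _ ⟨x, rfl⟩
      refine ⟨Multiplicative.ofAdd (fun i τ => if (i, τ) = E.symm x then 1 else 0), ?_⟩
      rw [hΦ, Finset.prod_eq_single (E.symm x)]
      · simp
      · intro p _ hp
        simp [hp]
      · intro h
        exact absurd (Finset.mem_univ _) h
  rw [← hrange] at hfin
  have hle : Φ.range ≤ U := by
    rw [hrange, closure_le]
    rintro _ ⟨x, rfl⟩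
    exact hu x
  have hDN : ∀ x, D (Nm x) = 1 := by
    intro x
    rw [hD, hN, map_prod, div_eq_one]
    refine Fintype.prod_equiv (Equiv.mulLeft σ) _ _ fun g => ?_
    rw [Equiv.coe_mulLeft, map_mul]
    rfl
  have hND : ∀ x, Nm (D x) = 1 := by
    intro x
    rw [hN]
    simp only [hD, map_div]
    rw [Finset.prod_div_distrib, div_eq_one]
    refine Fintype.prod_equiv (Equiv.mulRight σ) _ _ fun g => ?_
    rw [Equiv.coe_mulRight, map_mul]
    rfl
  have hUD : U.map D ≤ U := by
    rintro _ ⟨x, hx, rfl⟩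
    rw [hD]
    exact div_mem (hU σ x hx) hx
  have hUN : U.map Nm ≤ U := by
    rintro _ ⟨x, hx, rfl⟩
    rw [hN]
    exact prod_mem fun g _ => hU g x hx
  have hID : Φ.range.map D ≤ Φ.range := by
    rintro _ ⟨_, ⟨m, rfl⟩, rfl⟩
    exact ⟨f' m, hf m⟩
  have hIN : Φ.range.map Nm ≤ Φ.range := by
    rintro _ ⟨_, ⟨m, rfl⟩, rfl⟩
    exact ⟨g' m, hg m⟩
  obtain ⟨h1, h2, h3⟩ := herbrand_index D Nm hle (fun x _ => hDN x) (fun x _ => hND x)
    hUD hID hUN hIN hfin
  rw [hq.1, hq.2, mul_one] at h1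
  refine ⟨h1, h2 ?_, h3 ?_⟩
  · rw [hq.2]
    exact hcard.ne'
  · rw [hq.1]
    exact one_ne_zero

end Main

end Vale.Agent.P024.H157
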