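import Vale.Agent.P024.H157.Her3

/-!
The first cohomology of a subgroup `U` of `Lˣ`, for a cyclic extension `L / F`, by Hilbert 90, and
the count of norms.
-/

namespace Vale.Agent.P024.H157

open Subgroup

variable {F L : Type*} [Field F] [Field L] [Algebra F L]

/-- The nonzero elements of `F` as a subgroup of `Lˣ`. -/
noncomputable def Fx (F L : Type*) [Field F] [Field L] [Algebra F L] : Subgroup Lˣ :=
  (Units.map (algebraMap F L : F →* L)).range

theorem mem_Fx {x : Lˣ} : x ∈ Fx F L ↔ ∃ a : F, algebraMap F L a = (x : L) := by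
  constructor
  · rintro ⟨a, rfl⟩
    exact ⟨a, rfl⟩
  · rintro ⟨a, ha⟩
    have ha0 : a ≠ 0 := by
      rintro rfl
      rw [map_zero] at ha
      exact x.ne_zero ha.symm
    exact ⟨Units.mk0 a ha0, Units.ext ha⟩

theorem ker_D [FiniteDimensional F L] [IsGalois F L] {σ : L ≃ₐ[F] L}
    (hσ : ∀ g : L ≃ₐ[F] L, g ∈ zpowers σ) {D : Lˣ →* Lˣ}
    (hD : ∀ x : Lˣ, ((D x : Lˣ) : L) = σ x / x) : D.ker = Fx F L := by
  ext x
  rw [MonoidHom.mem_ker, mem_Fx]
  have h1 : D x = 1 ↔ σ (x : L) = x := by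
    rw [← Units.val_eq_one, hD, div_eq_one_iff_eq x.ne_zero]
  rw [h1]
  constructor
  · intro h
    have h2 : ∀ g : L ≃ₐ[F] L, g (x : L) = x := by
      intro g
      have h3 : zpowers σ ≤ MulAction.stabilizer (L ≃ₐ[F] L) (x : L) := by
        rw [zpowers_le]
        exact h
      exact h3 (hσ g)
    exact (IsGalois.mem_range_algebraMap_iff_fixed (x : L)).2 h2
  · rintro ⟨a, ha⟩
    rw [← ha, AlgEquiv.commutes]

/-- The norm as a product of powers of the generator. -/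
theorem prod_aut_eq_prod_range [FiniteDimensional F L] [IsGalois F L] {σ : L ≃ₐ[F] L}
    (hσ : ∀ g : L ≃ₐ[F] L, g ∈ zpowers σ) (x : L) :
    ∏ g : L ≃ₐ[F] L, g x = ∏ i ∈ Finset.range (Module.finrank F L), (σ ^ i) x := by
  classical
  have hord : orderOf σ = Module.finrank F L := by
    rw [← IsGalois.card_aut_eq_finrank F L]
    exact orderOf_eq_card_of_forall_mem_zpowers hσ
  symm
  refine Finset.prod_bij (fun i _ => σ ^ i) (fun _ _ => Finset.mem_univ _) ?_ ?_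
    (fun _ _ => rfl)
  · intro i hi j hj hij
    rw [← hord] at hi hj
    exact pow_injOn_Iio_orderOf (Finset.mem_range.1 hi) (Finset.mem_range.1 hj) hij
  · intro g _
    have h1 := hσ g
    rw [← mem_powers_iff_mem_zpowers] at h1
    obtain ⟨k, hk⟩ := h1
    refine ⟨k % orderOf σ, ?_, ?_⟩
    · rw [Finset.mem_range, ← hord]
      exact Nat.mod_lt _ (orderOf_pos σ)
    · rw [pow_mod_orderOf]
      exact hk

/-- Hilbert's Theorem 90 for a cyclic extension (universe polymorphic). -/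
theorem hilbert90 [FiniteDimensional F L] [IsGalois F L] {σ : L ≃ₐ[F] L}
    (hσ : ∀ g : L ≃ₐ[F] L, g ∈ zpowers σ) {x : L} (hx : ∏ g : L ≃ₐ[F] L, g x = 1) :
    ∃ y : Lˣ, (y : L) = x * σ y := by
  classical
  rw [prod_aut_eq_prod_range hσ] at hx
  set N := Module.finrank F L with hNdef
  have hord : orderOf σ = N := by
    rw [hNdef, ← IsGalois.card_aut_eq_finrank F L]
    exact orderOf_eq_card_of_forall_mem_zpowers hσ
  have hN0 : 0 < N := Module.finrank_pos
  let a : ℕ → L := fun i => ∏ j ∈ Finset.range i, (σ ^ j) x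
  have ha0 : a 0 = 1 := by simp [a]
  have haN : a N = 1 := hx
  have has : ∀ i, a (i + 1) = x * σ (a i) := by
    intro i
    simp only [a]
    rw [Finset.prod_range_succ', map_prod, pow_zero, AlgEquiv.one_apply, mul_comm]
    congr 1
    refine Finset.prod_congr rfl fun j _ => ?_
    rw [pow_succ', AlgEquiv.mul_apply]
  have hlin : LinearIndependent L (fun i : Fin N => ((σ ^ (i : ℕ) : L ≃ₐ[F] L) : L → L)) := by
    have h1 := (linearIndependent_monoidHom L L).comp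
      (fun i : Fin N => ((σ ^ (i : ℕ) : L ≃ₐ[F] L) : L →* L)) (by
        intro i j hij
        have h2 : (σ ^ (i : ℕ) : L ≃ₐ[F] L) = σ ^ (j : ℕ) := by
          ext z
          exact DFunLike.congr_fun hij z
        exact Fin.ext (pow_injOn_Iio_orderOf
          (show (i : ℕ) < orderOf σ from lt_of_lt_of_eq i.2 hord.symm)
          (show (j : ℕ) < orderOf σ from lt_of_lt_of_eq j.2 hord.symm) h2))
    exact h1
  obtain ⟨c, hc⟩ : ∃ c : L, ∑ i ∈ Finset.range N, a i * (σ ^ i) c ≠ 0 := by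
    by_contra hcon
    push Not at hcon
    have h1 : ∑ i : Fin N, a i • ((σ ^ (i : ℕ) : L ≃ₐ[F] L) : L → L) = 0 := by
      ext c
      rw [Finset.sum_apply]
      simp only [Pi.smul_apply, smul_eq_mul, Pi.zero_apply]
      rw [← hcon c, ← Fin.sum_univ_eq_sum_range (fun i => a i * (σ ^ i) c)]
    have h2 := Fintype.linearIndependent_iff.1 hlin (fun i => a i) h1 ⟨0, hN0⟩
    simp only [ha0] at h2
    exact one_ne_zero h2
  refine ⟨Units.mk0 _ hc, ?_⟩
  rw [Units.val_mk0, map_sum, Finset.mul_sum]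
  have h3 : ∀ i, x * σ (a i * (σ ^ i) c) = a (i + 1) * (σ ^ (i + 1)) c := by
    intro i
    rw [has, map_mul, pow_succ', AlgEquiv.mul_apply]
    ring
  simp only [h3]
  have h4 := Finset.sum_range_succ (fun i => a i * (σ ^ i) c) N
  have h5 := Finset.sum_range_succ' (fun i => a i * (σ ^ i) c) N
  have h6 : a N * (σ ^ N) c = a 0 * (σ ^ 0) c := by
    rw [haN, ha0, ← hord, pow_orderOf_eq_one, pow_zero]
  rw [h5, h6] at h4
  exact (add_right_cancel h4).symm

theorem ker_N [FiniteDimensional F L] [IsGalois F L] {σ : L ≃ₐ[F] L}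
    (hσ : ∀ g : L ≃ₐ[F] L, g ∈ zpowers σ) {D Nm : Lˣ →* Lˣ}
    (hD : ∀ x : Lˣ, ((D x : Lˣ) : L) = σ x / x)
    (hN : ∀ x : Lˣ, ((Nm x : Lˣ) : L) = ∏ g : L ≃ₐ[F] L, g x) : Nm.ker = D.range := by
  ext x
  constructor
  · intro hx
    have h1 : ∏ g : L ≃ₐ[F] L, g (x : L) = 1 := by
      rw [← hN, MonoidHom.mem_ker.1 hx, Units.val_one]
    obtain ⟨y, hy⟩ := hilbert90 hσ h1
    refine ⟨y⁻¹, ?_⟩
    apply Units.ext
    have hy0 : σ (y : L) ≠ 0 := (map_ne_zero_iff σ σ.injective).2 y.ne_zero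
    rw [hD, Units.val_inv_eq_inv_val, map_inv₀, div_inv_eq_mul, inv_mul_eq_iff_eq_mul₀ hy0,
      mul_comm]
    exact hy
  · rintro ⟨y, rfl⟩
    rw [MonoidHom.mem_ker]
    apply Units.ext
    rw [hN, Units.val_one]
    simp only [hD, map_div₀]
    rw [Finset.prod_div_distrib]
    have h1 : ∏ g : L ≃ₐ[F] L, g (σ (y : L)) = ∏ g : L ≃ₐ[F] L, g (y : L) := by
      refine Fintype.prod_equiv (Equiv.mulRight σ) _ _ fun g => ?_
      rfl
    rw [h1, div_self]
    rw [Finset.prod_ne_zero_iff]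
    intro g _
    exact (map_ne_zero_iff g g.injective).2 y.ne_zero

/-- Hilbert 90: the first cohomology of `U` consists of the classes, modulo `F` and `U`, of the
elements `a` with `σ a / a` in `U`. -/
theorem h90 [FiniteDimensional F L] [IsGalois F L] {σ : L ≃ₐ[F] L}
    (hσ : ∀ g : L ≃ₐ[F] L, g ∈ zpowers σ) {D Nm : Lˣ →* Lˣ}
    (hD : ∀ x : Lˣ, ((D x : Lˣ) : L) = σ x / x)
    (hN : ∀ x : Lˣ, ((Nm x : Lˣ) : L) = ∏ g : L ≃ₐ[F] L, g x) (U : Subgroup Lˣ) :
    (U.map D).relIndex (U ⊓ Nm.ker) = (Fx F L ⊔ U).relIndex (U.comap D) := by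
  have h1 : (U.comap D).map D = U ⊓ Nm.ker := by
    rw [ker_N hσ hD hN, Subgroup.map_comap_eq, inf_comm]
  have h2 : (Fx F L ⊔ U).map D = U.map D := by
    rw [Subgroup.map_sup, ← ker_D hσ hD, (Subgroup.map_eq_bot_iff _).2 le_rfl, bot_sup_eq]
  have h3 : D.ker ≤ U.comap D := by
    intro x hx
    show D x ∈ U
    rw [MonoidHom.mem_ker.1 hx]
    exact one_mem U
  rw [← h1, ← h2, relIndex_map_map, sup_eq_left.2 h3]
  congr 1
  rw [ker_D hσ hD, sup_right_comm, sup_idem]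

/-- The count of norms for a group `U` with a subgroup of finite index which is the permutation
module of a free set modulo one relation. -/
theorem count [FiniteDimensional F L] [IsGalois F L] {X : Type*} [Fintype X]
    [MulAction (L ≃ₐ[F] L) X] {σ : L ≃ₐ[F] L}
    (hσ : ∀ g : L ≃ₐ[F] L, g ∈ zpowers σ)
    (hfree : ∀ (g : L ≃ₐ[F] L) (x : X), g • x = x → g = 1) {D Nm : Lˣ →* Lˣ}
    (hD : ∀ x : Lˣ, ((D x : Lˣ) : L) = σ x / x)
    (hN : ∀ x : Lˣ, ((Nm x : Lˣ) : L) = ∏ g : L ≃ₐ[F] L, g x) (U : Subgroup Lˣ)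
    (hU : ∀ (g : L ≃ₐ[F] L) (x y : Lˣ), x ∈ U → (y : L) = g x → y ∈ U)
    (u : X → Lˣ) (hu : ∀ x, u x ∈ U)
    (hug : ∀ (g : L ≃ₐ[F] L) x, ((u (g • x) : Lˣ) : L) = g (u x))
    (hfin : (closure (Set.range u)).relIndex U ≠ 0)
    (e : X → ℤ) (he0 : e ≠ 0) (heg : ∀ (g : L ≃ₐ[F] L) x, e (g • x) = e x)
    (hrel : ∀ a : X → ℤ, ∏ x, u x ^ a x = 1 ↔ ∃ k : ℤ, a = k • e) :
    (Fx F L ⊔ U).relIndex (U.comap D) =
        Module.finrank F L * (U.map Nm).relIndex (Fx F L ⊓ U) ∧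
      (Fx F L ⊔ U).relIndex (U.comap D) ≠ 0 ∧ (U.map Nm).relIndex (Fx F L ⊓ U) ≠ 0 := by
  let ρ : (L ≃ₐ[F] L) →* MulAut Lˣ :=
    { toFun := fun g => Units.mapEquiv (g : L ≃* L)
      map_one' := by
        ext x
        rfl
      map_mul' := fun a b => by
        ext x
        rfl }
  have hρ : ∀ (g : L ≃ₐ[F] L) (x : Lˣ), ((ρ g x : Lˣ) : L) = g x := fun g x => rfl
  have h := herb ρ hσ hfree D Nm
    (fun x => Units.ext (by rw [hD, Units.val_div_eq_div_val, hρ]))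
    (fun x => Units.ext (by rw [hN, Units.coe_prod]; rfl))
    U (fun g x hx => hU g x _ hx (hρ g x)) u hu
    (fun g x => Units.ext (by rw [hug, hρ])) hfin e he0 heg hrel
  rw [h90 hσ hD hN, ker_D hσ hD, inf_comm U (Fx F L)] at h
  have hc : Nat.card (L ≃ₐ[F] L) = Module.finrank F L := IsGalois.card_aut_eq_finrank F L
  rw [hc] at h
  exact h

end Vale.Agent.P024.H157
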