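import Vale.Agent.P024.Bdl.B2

/-!
Isomorphisms of open subgroups of the Galois group of a solvably closed Galois extension of `ℚ` are
inner.
-/

namespace Vale.Agent.P024.H157

open scoped NumberField Topology
open IsDedekindDomain Filter NumberField

/-- restriction of scalars, as a homomorphism to the fixing subgroup -/
noncomputable def toFix {K L : Type*} [Field K] [Field L] [Algebra K L] (F : IntermediateField K L) :
    (L ≃ₐ[F] L) →* F.fixingSubgroup :=
  F.fixingSubgroupEquiv.symm.toMonoidHom

theorem toFix_apply {K L : Type*} [Field K] [Field L] [Algebra K L] (F : IntermediateField K L)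
    (g : L ≃ₐ[F] L) (x : L) : ((toFix F g : F.fixingSubgroup) : L ≃ₐ[K] L) x = g x := rfl

theorem toFix_surj {K L : Type*} [Field K] [Field L] [Algebra K L] (F : IntermediateField K L) :
    Function.Surjective (toFix F) := F.fixingSubgroupEquiv.symm.surjective

theorem toFix_inj {K L : Type*} [Field K] [Field L] [Algebra K L] (F : IntermediateField K L) :
    Function.Injective (toFix F) := F.fixingSubgroupEquiv.symm.injective

theorem continuous_toFix {K L : Type*} [Field K] [Field L] [Algebra K L] [Algebra.IsAlgebraic K L]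
    (F : IntermediateField K L) : Continuous (toFix F) := by
  rw [continuous_induced_rng]
  let f : (L ≃ₐ[F] L) →* (L ≃ₐ[K] L) := F.fixingSubgroup.subtype.comp (toFix F)
  show Continuous f
  refine continuous_of_continuousAt_one f ?_
  intro A hA
  rw [map_one, krullTopology_mem_nhds_one_iff] at hA
  obtain ⟨E, hE, hEA⟩ := hA
  rw [Filter.mem_map]
  have : Algebra.IsAlgebraic F L := Algebra.IsAlgebraic.tower_top (K := K) F
  let b := Module.finBasis K E
  have hopen : IsOpen (⋂ i, (MulAction.stabilizer (L ≃ₐ[F] L) (b i : L) : Set (L ≃ₐ[F] L))) :=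
    isOpen_iInter_of_finite fun i => stabilizer_isOpen_of_isIntegral (K := F) (L := L) (b i : L)
  refine Filter.mem_of_superset (hopen.mem_nhds (Set.mem_iInter.2 fun i => one_mem _)) ?_
  intro g hg
  apply hEA
  rw [SetLike.mem_coe, IntermediateField.mem_fixingSubgroup_iff]
  intro x hx
  have h1 : ∀ i, g (b i : L) = (b i : L) := fun i => Set.mem_iInter.1 hg i
  have h2 : x = ∑ i, (b.repr ⟨x, hx⟩ i) • (b i : L) := by
    have h3 := congrArg (fun y : E => (y : L)) (b.sum_repr ⟨x, hx⟩)
    refine h3.symm.trans ?_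
    push_cast
    rfl
  show (f g) x = x
  rw [h2, map_sum]
  refine Finset.sum_congr rfl fun i _ => ?_
  rw [map_smul]
  congr 1
  exact h1 i

/-- an open subgroup is the fixing subgroup of a number field -/
theorem exists_fix {K L : Type*} [Field K] [Field L] [Algebra K L] [IsGalois K L]
    (V : Subgroup (L ≃ₐ[K] L)) (hV : IsOpen (V : Set (L ≃ₐ[K] L))) :
    ∃ F : IntermediateField K L, FiniteDimensional K F ∧ F.fixingSubgroup = V := by
  refine ⟨IntermediateField.fixedField V, ?_, ?_⟩
  · have h1 : (V : Set (L ≃ₐ[K] L)) ∈ 𝓝 1 := hV.mem_nhds V.one_mem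
    rw [krullTopology_mem_nhds_one_iff] at h1
    obtain ⟨E, hE, hEV⟩ := h1
    have h2 : IntermediateField.fixedField V ≤ E := by
      rw [← InfiniteGalois.fixedField_fixingSubgroup E]
      exact IntermediateField.fixedField_antitone hEV
    exact Module.Finite.of_injective (IntermediateField.inclusion h2).toLinearMap
      (IntermediateField.inclusion h2).injective
  · exact InfiniteGalois.fixingSubgroup_fixedField ⟨V, Subgroup.isClosed_of_isOpen V hV⟩

theorem nu {L : Type*} [Field L] [Algebra ℚ L] [IsGalois ℚ L] (hL : SolvablyClosed L)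
    (V : Subgroup (L ≃ₐ[ℚ] L)) (hV : IsOpen (V : Set (L ≃ₐ[ℚ] L))) (γ : V →* (L ≃ₐ[ℚ] L))
    (hγ : Continuous γ) (hinj : Function.Injective γ) (hopen : IsOpen (Set.range γ)) :
    ∃ b : L ≃ₐ[ℚ] L, ∀ g : V, γ g = b * g * b⁻¹ := by
  obtain ⟨F, hF, rfl⟩ := exists_fix V hV
  have hc : CharZero L := algebraRat.charZero L
  have hF' : @Module.Finite ℚ F _ _ (DivisionRing.toRatAlgebra.toModule) := by
    have e : (DivisionRing.toRatAlgebra : Algebra ℚ F) = F.algebra' := Subsingleton.elim _ _
    rw [e]
    exact hF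
  have : NumberField F := { to_finiteDimensional := hF' }
  let α : (L ≃ₐ[F] L) →* (L ≃ₐ[ℚ] L) := γ.comp (toFix F)
  have hα : Continuous α := hγ.comp (continuous_toFix F)
  have hr : IsOpen (Set.range α) := by
    have : Set.range α = Set.range γ := by
      ext y
      constructor
      · rintro ⟨x, rfl⟩
        exact ⟨_, rfl⟩
      · rintro ⟨x, rfl⟩
        obtain ⟨z, rfl⟩ := toFix_surj F x
        exact ⟨z, rfl⟩
    rw [this]
    exact hopen
  obtain ⟨j, hj⟩ := induced_of_kernel hL hL α hα hr ∅ tendsto_empty ⊤ isOpen_univ (by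
    intro g _ hg r _ _ z _
    have h1 : toFix F g = 1 := hinj (by rw [map_one]; exact hg)
    have h2 : g = 1 := toFix_inj F (by rw [h1, map_one])
    rw [h2]
    rfl)
  let jq : L →ₐ[ℚ] L := j.toRatAlgHom
  have hbij : Function.Bijective jq := Algebra.IsAlgebraic.algHom_bijective jq
  let b : L ≃ₐ[ℚ] L := AlgEquiv.ofBijective jq hbij
  refine ⟨b⁻¹, fun g => ?_⟩
  obtain ⟨z, rfl⟩ := toFix_surj F g
  rw [inv_inv, mul_assoc, eq_inv_mul_iff_mul_eq]
  ext x
  exact (hj z x).symm

end Vale.Agent.P024.H157
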