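import Vale.Agent.P024.H157.Her4
import Vale.Agent.P024.M3.Spec

/-!
The blocks (H) and (H90).
-/

namespace Vale.Agent.P024.H157

open Vale.Agent.P024.M3

/-- Block (H). -/
theorem propH : PropH := by
  intro M _ d n hdn hnd A B hBA hfin hAd hAn hBd hBn h0B h1B
  obtain ⟨h1, h2, h3⟩ := herbrand_index d n hBA (fun x _ => hdn x) (fun x _ => hnd x)
    hAd hBd hAn hBn hfin
  refine ⟨h3 h0B, h2 h1B, ?_⟩
  rw [mul_comm (h0 d n A), mul_comm (h0 d n B)]
  exact h1.symm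

theorem dd_apply {F L : Type*} [Field F] [Field L] [Algebra F L] (σ : L ≃ₐ[F] L) (x : Lˣ) :
    ((dd σ x : Lˣ) : L) = σ x / x := by
  show ((Units.map (σ : L →* L) x / x : Lˣ) : L) = _
  rw [Units.val_div_eq_div_val]
  rfl

theorem nn_apply {F L : Type*} [Field F] [Field L] [Algebra F L] [Fintype (L ≃ₐ[F] L)]
    (x : Lˣ) : ((nn F L x : Lˣ) : L) = ∏ g : L ≃ₐ[F] L, g x := by
  show ((∏ τ : L ≃ₐ[F] L, Units.map (τ : L →* L) x : Lˣ) : L) = _
  rw [Units.coe_prod]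
  rfl

/-- Block (H90). -/
theorem propH90 : PropH90 := by
  intro F L _ _ _ _ _ σ hσ B
  have h := h90 hσ (D := dd σ) (Nm := nn F L) (dd_apply σ) nn_apply B
  rw [← ker_D hσ (dd_apply σ)] at h
  exact h

end Vale.Agent.P024.H157
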