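import Vale.Agent.P024.H157.Clo3D
import Vale.Agent.P024.H409.Dens
import Vale.Agent.P024.H358.Joint

/-!
Uchida's conjecture for totally real abelian fields of prime exponent.
-/

namespace Vale.Agent.P024.H157

open scoped NumberField Topology
open IsDedekindDomain Filter NumberField

theorem noSplit_prime (F : Type*) [Field F] [NumberField F] [IsTotallyReal F] [IsGalois ℚ F]
    (hab : ∀ g h : F ≃ₐ[ℚ] F, g * h = h * g)
    (l : ℕ) (hl : l.Prime) (hexp : ∀ g : F ≃ₐ[ℚ] F, g ^ l = 1)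
    (p : ℕ) [hp : Fact p.Prime] (hp2 : p ≠ 2) (hord : orderOf (p : ZMod l) = l - 1) :
    TR.NoSplit F p :=
  H358.Joint.noSplit_of_clos F p hp2 fun v hv => clos_prime F hab l hl hexp p hp.out hp2 hord v hv

theorem tendsto_fin {T : Set ℕ} (hT : T.Finite) :
    Tendsto (fun s : ℝ => (∑' p : {p : ℕ | p.Prime ∧ p ∈ T}, ((p : ℕ) : ℝ) ^ (-s)) /
      Real.log (1 / (s - 1))) (𝓝[>] 1) (𝓝 0) := by
  induction T, hT using Set.Finite.induction_on with
  | empty => exact tendsto_empty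
  | insert _ _ ih => exact tendsto_insert _ _ ih

/-- Uchida's conjecture for the totally real fields `F₁` which are abelian over `ℚ` of prime
exponent. -/
theorem uchida_prime {F₁ E₁ F₂ E₂ : Type*} [Field F₁] [NumberField F₁] [Field E₁] [Algebra F₁ E₁]
    [IsGalois F₁ E₁] [Field F₂] [NumberField F₂] [Field E₂] [Algebra F₂ E₂] [IsGalois F₂ E₂]
    [IsTotallyReal F₁] [IsGalois ℚ F₁] (hab : ∀ g h : F₁ ≃ₐ[ℚ] F₁, g * h = h * g)
    (l : ℕ) (hl : l.Prime) (hexp : ∀ g : F₁ ≃ₐ[ℚ] F₁, g ^ l = 1)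
    (hE₁ : SolvablyClosed E₁) (hE₂ : SolvablyClosed E₂)
    (α : (E₁ ≃ₐ[F₁] E₁) →* (E₂ ≃ₐ[F₂] E₂)) (hα : Continuous α) (hopen : IsOpen (Set.range α)) :
    ∃! j : E₂ →+* E₁, ∀ (g : E₁ ≃ₐ[F₁] E₁) (x : E₂), g (j x) = j ((α g) x) := by
  obtain ⟨T, δ, hT, hδ, hd⟩ := H409.densA_prime F₁ l hl hexp
  refine TR.induced_of_noSplit_dens hE₁ hE₂ α hα hopen F₁ (RingHom.id F₁)
    {r : ℕ | orderOf (r : ZMod l) = l - 1} T (tendsto_fin hT) hδ hd ?_
  intro p hp hp2 hpA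
  exact noSplit_prime F₁ hab l hl hexp p hp2 hpA

end Vale.Agent.P024.H157
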